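import Mathlib

/-! Pigeonhole for powers of a point on the unit circle. -/

namespace Vale.Agent.P105

open Finset Real

/-- Among the first `M` multiples of `H` some exponent brings `z` within `2π/M` of `1`. -/
theorem exists_pow_near_one {z : ℂ} (hz : ‖z‖ = 1) (H : ℕ) {M : ℕ} (hM : 0 < M) :
    ∃ d : ℕ, 1 ≤ d ∧ d ≤ M ∧ ‖z ^ (H * d) - 1‖ ≤ 2 * π / M := by
  have hMr : (0 : ℝ) < M := by exact_mod_cast hM
  set a : ℕ → ℝ := fun k => Complex.arg (z ^ (H * k)) + π with ha
  have ha0 : ∀ k, 0 ≤ a k := fun k => by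
    have := Complex.neg_pi_lt_arg (z ^ (H * k)); simp only [ha]; linarith
  have ha1 : ∀ k, a k ≤ 2 * π := fun k => by
    have := Complex.arg_le_pi (z ^ (H * k)); simp only [ha]; linarith
  set f : ℕ → ℕ := fun k => min (M - 1) ⌊a k * M / (2 * π)⌋₊ with hf
  obtain ⟨i, hi, j, hj, hne, hfe⟩ := exists_ne_map_eq_of_card_lt_of_maps_to
    (s := range (M + 1)) (t := range M) (by simp)
    (fun k _ => Finset.mem_range.mpr (show f k < M by simp only [hf]; omega))
  wlog hij : i < j generalizing i j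
  · exact this j hj i hi hne.symm hfe.symm (by omega)
  have hb : ∀ k, (f k : ℝ) ≤ a k * M / (2 * π) ∧ a k * M / (2 * π) ≤ f k + 1 := by
    intro k
    have h0 : 0 ≤ a k * M / (2 * π) := by have := ha0 k; positivity
    have h1 : a k * M / (2 * π) ≤ M := by
      rw [div_le_iff₀ (by positivity)]; nlinarith [ha1 k]
    refine ⟨le_trans (by exact_mod_cast min_le_right (M - 1) ⌊a k * M / (2 * π)⌋₊) (Nat.floor_le h0), ?_⟩
    rcases le_total (M - 1) ⌊a k * M / (2 * π)⌋₊ with h | h
    · simp only [hf, min_eq_left h]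
      rw [Nat.cast_sub (by omega), Nat.cast_one]; linarith
    · simp only [hf, min_eq_right h]; exact (Nat.lt_floor_add_one _).le
  have hd : |a j - a i| ≤ 2 * π / M := by
    have hi' := hb i
    have hj' := hb j
    rw [hfe] at hi'
    have h1 : |a j * M / (2 * π) - a i * M / (2 * π)| ≤ 1 := by
      rw [abs_le]; constructor <;> linarith [hi'.1, hi'.2, hj'.1, hj'.2]
    rw [← sub_div, ← sub_mul, abs_div, abs_mul, abs_of_pos hMr,
      abs_of_pos (by positivity : (0 : ℝ) < 2 * π), div_le_one (by positivity)] at h1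
    rwa [le_div_iff₀ hMr]
  refine ⟨j - i, by omega, by have := mem_range.mp hj; omega, ?_⟩
  have e : ∀ k, z ^ (H * k) = Complex.exp ((Complex.arg (z ^ (H * k)) : ℂ) * Complex.I) := fun k => by
    have := Complex.norm_mul_exp_arg_mul_I (z ^ (H * k))
    rwa [norm_pow, hz, one_pow, Complex.ofReal_one, one_mul, eq_comm] at this
  have hsplit : z ^ (H * (j - i)) * z ^ (H * i) = z ^ (H * j) := by
    rw [← pow_add, ← mul_add, Nat.sub_add_cancel hij.le]
  calc ‖z ^ (H * (j - i)) - 1‖ = ‖(z ^ (H * (j - i)) - 1) * z ^ (H * i)‖ := by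
        rw [norm_mul, norm_pow, hz, one_pow, mul_one]
    _ = ‖z ^ (H * j) - z ^ (H * i)‖ := by rw [sub_mul, hsplit, one_mul]
    _ = ‖Complex.exp (Complex.I * ((a j - a i : ℝ) : ℂ)) - 1‖ := by
        have : Complex.exp (Complex.I * ((a j - a i : ℝ) : ℂ)) * z ^ (H * i) = z ^ (H * j) := by
          rw [e j, e i, ← Complex.exp_add]
          congr 1
          simp only [ha]; push_cast; ring
        rw [← mul_one ‖Complex.exp _ - 1‖,
          show (1 : ℝ) = ‖z ^ (H * i)‖ by rw [norm_pow, hz, one_pow], ← norm_mul, sub_mul, this,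
          one_mul]
    _ ≤ ‖a j - a i‖ := norm_exp_I_mul_ofReal_sub_one_le
    _ ≤ _ := by rwa [Real.norm_eq_abs]

end Vale.Agent.P105
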