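import Vale.Agent.P105.Defs
import Vale.Agent.P105.Pigeon

/-! The asymptotic step of the iteration. -/

namespace Vale.Agent.P105

open Real

theorem State.mono {β : ℝ} {z : ℂ} {t ti : ℝ} {c : ℂ} {D A : ℝ} {G : ℕ} {C S C' S' : ℝ}
    (h : State β z t ti c D A G C S) (hC : C' ≤ C) (hC0 : 0 < C') (hS : S ≤ S') :
    State β z t ti c D A G C' S' :=
  ⟨h.elem, h.hc, h.hti, h.tail, h.small, hC0, fun N => hC.trans (h.prod_ge N),
    fun N => (h.tan_le N).trans hS⟩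

section Num

variable {D C ε S l : ℝ} {G : ℕ}

theorem pigeon_num (hD : 0 < D) (hG : 1 ≤ G) (h : D ^ 2 * G ≤ 1 / 1000000) {M d : ℕ}
    (hM : M = ⌊1 / (36 * (G : ℝ) * D ^ 2)⌋₊) (hd : d ≤ M) :
    0 < M ∧ ((3 * G * d : ℕ) : ℝ) ≤ 1 / (12 * D ^ 2) ∧
      2 * π / M ≤ 460 * G * D ^ 2 ∧ D ^ 2 ≤ 2 * π / M := by
  have hx1 : (1 : ℝ) ≤ G := by exact_mod_cast hG
  have hG0 : (0 : ℝ) < G := by linarith
  set q : ℝ := 1 / (36 * (G : ℝ) * D ^ 2) with hq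
  have hq2 : 2 ≤ q := by
    rw [hq, le_div_iff₀ (by positivity)]; linarith
  have hMle : (M : ℝ) ≤ q := hM ▸ Nat.floor_le (by positivity)
  have hMge : q / 2 ≤ M := by
    have := Nat.lt_floor_add_one q; rw [← hM] at this; linarith
  have hMr : (0 : ℝ) < M := by linarith
  refine ⟨by exact_mod_cast hMr, ?_, ?_, ?_⟩
  · have h1 : ((3 * G * d : ℕ) : ℝ) ≤ 3 * G * q := by
      push_cast
      gcongr
      exact le_trans (by exact_mod_cast hd) hMle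
    refine h1.trans (le_of_eq ?_)
    rw [hq]; field_simp; ring
  · rw [div_le_iff₀ hMr]
    have h1 : 460 * (G : ℝ) * D ^ 2 * (q / 2) ≤ 460 * G * D ^ 2 * M := by gcongr
    have h2 : 460 * (G : ℝ) * D ^ 2 * (q / 2) = 460 / 72 := by rw [hq]; field_simp; ring
    linarith [Real.pi_lt_d2]
  · rw [le_div_iff₀ hMr]
    have h1 : D ^ 2 * M ≤ D ^ 2 * q := by gcongr
    have h2 : D ^ 2 * q = 1 / (36 * G) := by rw [hq]; field_simp
    have h3 : (1 : ℝ) / (36 * G) ≤ 1 := by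
      rw [div_le_one (by positivity)]; linarith
    linarith [Real.pi_gt_three]

theorem step_num (hD : 0 < D) (hDε : D ≤ ε) (hε : ε ≤ 1 / 100000) (hS : 0 ≤ S) (hDS : D * S ≤ ε)
    (_hl0 : 0 < l) (hl : l ≤ 2 / 3) (hlD : l ^ G ≤ D ^ 4) {L : ℝ} (hL0 : 0 ≤ L)
    (hL : L ≤ 1 / (12 * D ^ 2)) :
    4 * D * S + 4 * (1 / 32) * l ^ G * (S + (S + 4 * (L * D + 1 / 32 / (1 - l)))) ≤ 5 * ε ∧
      (S + (S + 4 * (L * D + 1 / 32 / (1 - l)))) / (1 - 5 * ε) ≤ 1 / D ∧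
      (1 : ℝ) / 4 ≤ exp (-6 * (2 * L * D ^ 2 + 2 * (1 / 32) ^ 2 / (1 - l))) * (1 - 5 * ε) := by
  have hA : (1 / 32 : ℝ) / (1 - l) ≤ 3 / 32 := by
    rw [div_le_iff₀ (by linarith)]; linarith
  have hA0 : 0 ≤ (1 / 32 : ℝ) / (1 - l) := div_nonneg (by norm_num) (by linarith)
  have hA2 : 2 * (1 / 32 : ℝ) ^ 2 / (1 - l) ≤ 3 / 512 := by
    rw [div_le_iff₀ (by linarith)]; linarith
  have hLD2 : L * D ^ 2 ≤ 1 / 12 := by
    refine (mul_le_mul_of_nonneg_right hL (sq_nonneg D)).trans (le_of_eq ?_)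
    field_simp
  have hSu : S + (S + 4 * (L * D + 1 / 32 / (1 - l))) ≤ 1 / (2 * D) := by
    rw [le_div_iff₀ (by positivity)]
    have h1 := mul_le_mul_of_nonneg_right hA hD.le
    linarith [show (S + (S + 4 * (L * D + 1 / 32 / (1 - l)))) * (2 * D) =
      4 * (D * S) + 8 * (L * D ^ 2) + 8 * (1 / 32 / (1 - l) * D) by ring]
  have hSu0 : 0 ≤ S + (S + 4 * (L * D + 1 / 32 / (1 - l))) := by
    have := mul_nonneg hL0 hD.le
    linarith
  refine ⟨?_, ?_, ?_⟩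
  · have h1 : l ^ G * (S + (S + 4 * (L * D + 1 / 32 / (1 - l)))) ≤ D ^ 4 * (1 / (2 * D)) :=
      mul_le_mul hlD hSu hSu0 (by positivity)
    have h2 : D ^ 4 * (1 / (2 * D)) = D ^ 3 / 2 := by field_simp
    have h3 : D ^ 3 ≤ ε := (pow_le_of_le_one hD.le (by linarith) (by norm_num)).trans hDε
    linarith
  · rw [div_le_iff₀ (by linarith)]
    refine hSu.trans ?_
    rw [show 1 / (2 * D) = 1 / D * (1 / 2) by field_simp]
    gcongr; linarith
  · have h2 : exp (-(21 / 20) : ℝ) ≤ exp (-6 * (2 * L * D ^ 2 + 2 * (1 / 32) ^ 2 / (1 - l))) := by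
      rw [exp_le_exp]; linarith
    have h3 : (1 : ℝ) / 3 ≤ exp (-(21 / 20)) := by
      rw [exp_neg, one_div]
      refine inv_anti₀ (exp_pos _) ?_
      rw [show (21 / 20 : ℝ) = 1 + 1 / 20 by norm_num, exp_add]
      have h5 : exp (1 / 20 : ℝ) ≤ 1 / (1 - 1 / 20) :=
        exp_bound_div_one_sub_of_interval (by norm_num) (by norm_num)
      have := Real.exp_one_lt_d9
      nlinarith [exp_pos (1 / 20 : ℝ)]
    calc (1 : ℝ) / 4 ≤ 1 / 3 * (1 - 5 * ε) := by linarith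
      _ ≤ _ := mul_le_mul_of_nonneg_right (h3.trans h2) (by linarith)

theorem quality_num (hD : 0 < D) (hε0 : 0 < ε) (hε : ε ≤ 1 / 100000) (hC1 : C ^ 2 ≤ 1)
    (h : D ^ 2 * G ≤ ε ^ 2 * C ^ 2) {ρ : ℝ} (hρ0 : 0 ≤ ρ) (hρ : ρ ≤ 460 * G * D ^ 2) {L : ℕ}
    (hL : (L : ℝ) ≤ 1 / (12 * D ^ 2)) :
    D * ρ * √((G + L : ℕ) : ℝ) ≤ ε / 2 * (C ^ 2 / 4) ∧ D * ρ * (1 / D) ≤ ε / 2 := by
  have hεsq : ε ^ 2 ≤ ε / 100000 := by
    rw [sq, div_eq_mul_one_div ε]; exact mul_le_mul_of_nonneg_left hε hε0.le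
  have h' : D ^ 2 * G ≤ ε ^ 2 := h.trans (mul_le_of_le_one_right (sq_nonneg ε) hC1)
  have hsq : √((G + L : ℕ) : ℝ) ≤ 1 / (3 * D) := by
    rw [Real.sqrt_le_iff]
    refine ⟨by positivity, ?_⟩
    push_cast
    rw [le_div_iff₀ (by positivity)] at hL
    rw [div_pow, one_pow, le_div_iff₀ (by positivity)]
    have : ε ^ 2 ≤ 1 / 1000 := by linarith
    linarith [show ((G : ℝ) + L) * (3 * D) ^ 2 = 9 * (D ^ 2 * G) + (3 / 4) * (L * (12 * D ^ 2)) by ring]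
  constructor
  · calc D * ρ * √((G + L : ℕ) : ℝ) ≤ D * (460 * G * D ^ 2) * (1 / (3 * D)) := by gcongr
      _ = 460 / 3 * (D ^ 2 * G) := by field_simp
      _ ≤ 460 / 3 * (ε ^ 2 * C ^ 2) := by gcongr
      _ ≤ ε / 2 * (C ^ 2 / 4) := by
          have := mul_le_mul_of_nonneg_right hεsq (sq_nonneg C)
          linarith [mul_nonneg hε0.le (sq_nonneg C)]
  · calc D * ρ * (1 / D) = ρ := by field_simp
      _ ≤ 460 * G * D ^ 2 := hρ
      _ ≤ ε / 2 := by linarith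

end Num

/-- One step of the iteration improves the quality by a factor `2`. -/
theorem asymp : AsympStmt := by
  rintro β z hβ hβ2 hz t G D C ε hε ⟨ti, c, S, hst, hG1, hD, hDG, hDS, hlD, hlC, ht⟩
  have hβ1 : 1 < β := by linarith
  have hb : 0 < β := by linarith
  set l := β⁻¹ with hl
  have hl0 : 0 < l := by positivity
  have hl23 : l ≤ 2 / 3 := by
    rw [hl]; exact (inv_anti₀ (by norm_num) hβ).trans (by norm_num)
  have hl12 : 1 / 2 ≤ l := by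
    rw [hl, one_div]; exact inv_anti₀ hb hβ2
  have hl1 : l ≤ 1 := by linarith
  have hε1 : ε ≤ 1 / 100000 := by simpa [eps0] using hε
  have hS := hst.S_nonneg
  have hC1 := hst.C_le_one
  have hC0 := hst.Cpos
  have hx1 : (1 : ℝ) ≤ G := by exact_mod_cast hG1
  have hε0 : 0 < ε := by
    by_contra! h
    have h1 : 0 < D * √(G : ℝ) := by positivity
    have h2 : ε * C ≤ 0 := mul_nonpos_of_nonpos_of_nonneg h hC0.le
    linarith
  have hDε : D ≤ ε := by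
    have h1 : D ≤ D * √(G : ℝ) := le_mul_of_one_le_right hD.le (Real.one_le_sqrt.mpr hx1)
    have h2 : ε * C ≤ ε * 1 := mul_le_mul_of_nonneg_left hC1 hε0.le
    linarith
  have hD2G : D ^ 2 * G ≤ ε ^ 2 * C ^ 2 := by
    have := pow_le_pow_left₀ (by positivity) hDG 2
    rwa [mul_pow, Real.sq_sqrt (by positivity), mul_pow] at this
  have hC2 : C ^ 2 ≤ 1 := pow_le_one₀ hC0.le hC1
  have hD2G' : D ^ 2 * G ≤ ε ^ 2 :=
    hD2G.trans (mul_le_of_le_one_right (sq_nonneg ε) hC2)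
  have hεsq : ε ^ 2 ≤ ε / 100000 := by
    rw [sq, div_eq_mul_one_div ε]; exact mul_le_mul_of_nonneg_left hε1 hε0.le
  have hlG : l ^ G ≤ (1 / 100000) ^ 4 :=
    hlD.trans (pow_le_pow_left₀ hD.le (hDε.trans hε1) 4)
  have hG10 : 10 ≤ G := by
    by_contra! h
    have h1 : (1 / 2 : ℝ) ^ 10 ≤ l ^ G :=
      (pow_le_pow_of_le_one (by norm_num) (by norm_num) h.le).trans (pow_le_pow_left₀ (by norm_num) hl12 G)
    norm_num at h1 hlG
    linarith
  -- the step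
  have hρbounds := fun d => pigeon_num (d := d) (M := ⌊1 / (36 * (G : ℝ) * D ^ 2)⌋₊) hD hG1 (hD2G'.trans (by
    linarith [show ε ^ 2 ≤ ε / 100000 from hεsq])) rfl
  set M := ⌊1 / (36 * (G : ℝ) * D ^ 2)⌋₊
  obtain ⟨d, hd1, hdM, hd⟩ := exists_pow_near_one hz (3 * G) (hρbounds 0 (Nat.zero_le M)).1
  obtain ⟨hM0, hLle, hρle, hρge⟩ := hρbounds d hdM
  set L := 3 * G * d
  set ρ := 2 * π / (M : ℝ)
  have hρ0 : 0 ≤ ρ := by positivity
  have hLG : 3 * G ≤ L := Nat.le_mul_of_pos_right _ hd1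
  obtain ⟨hη, hSnew, hloss⟩ := step_num (L := (L : ℝ)) hD hDε hε1 hS hDS hl0 hl23 hlD
    (Nat.cast_nonneg L) hLle
  obtain ⟨hq1, hq2⟩ := quality_num hD hε0 hε1 hC2 hD2G hρ0 hρle hLle
  have hst' := hst.step (L := L) (w := G) hβ1 hz (by omega) hd hη (by linarith) (by
    have h1 : ρ ≤ 1 := by linarith
    have : D * ρ ≤ D * 1 := mul_le_mul_of_nonneg_left h1 hD.le
    linarith)
  have hCnew : C ^ 2 / 4 ≤
      C ^ 2 * exp (-6 * (2 * L * D ^ 2 + 2 * (1 / 32) ^ 2 / (1 - l))) * (1 - 5 * ε) := by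
    rw [mul_assoc, div_eq_mul_one_div]
    exact mul_le_mul_of_nonneg_left hloss (sq_nonneg C)
  refine ⟨t * (β ^ L - 1), G + L, D * ρ, C ^ 2 / 4, ti * (l ^ L - 1), c * (z ^ L - 1), 1 / D,
    hst'.mono hCnew (by positivity) hSnew, by omega, by positivity, ?_, ?_, ?_, ?_, ?_⟩
  · exact hq1
  · exact hq2
  · calc l ^ (G + L) ≤ l ^ (G * 4) := pow_le_pow_of_le_one hl0.le hl1 (by omega)
      _ = (l ^ G) ^ 4 := pow_mul _ _ _
      _ ≤ (D ^ 4) ^ 4 := pow_le_pow_left₀ (by positivity) hlD 4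
      _ = D ^ 4 * (D ^ 3) ^ 4 := by ring
      _ ≤ D ^ 4 * ρ ^ 4 := by
          gcongr
          exact le_trans (pow_le_pow_of_le_one hD.le (by linarith) (by norm_num)) hρge
      _ = (D * ρ) ^ 4 := (mul_pow _ _ _).symm
  · calc l ^ (G + L) ≤ l ^ (G * 4) := pow_le_pow_of_le_one hl0.le hl1 (by omega)
      _ = (l ^ G) ^ 2 * (l ^ G) ^ 2 := by rw [pow_mul]; ring
      _ ≤ (C ^ 8) ^ 2 * (1 / 4) ^ 8 := by
          gcongr
          exact le_trans (pow_le_of_le_one (by positivity) (pow_le_one₀ hl0.le hl1) (by norm_num))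
            (hlG.trans (by norm_num))
      _ = (C ^ 2 / 4) ^ 8 := by ring
  · have h4 : (4 : ℝ) ≤ β ^ L := by
      refine le_trans ?_ (pow_le_pow_right₀ hβ1.le (show 4 ≤ L by omega))
      calc (4 : ℝ) ≤ (3 / 2) ^ 4 := by norm_num
        _ ≤ β ^ 4 := by gcongr
    calc β ^ (G + L) = β ^ G * β ^ L := pow_add _ _ _
      _ ≤ t ^ 2 * (β ^ L - 1) ^ 2 := by
          refine mul_le_mul ht ?_ (by positivity) (sq_nonneg t)
          nlinarith
      _ = (t * (β ^ L - 1)) ^ 2 := (mul_pow _ _ _).symm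

end Vale.Agent.P105
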