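import Vale.Agent.P105.Step

/-!
Interfaces of the P105 proof: the measure, the parameter, and the invariant of the iteration.
-/

namespace Vale.Agent.P105

open MeasureTheory

/-- The law of a fair sign sequence. -/
noncomputable def coinSeq : Measure (ℕ → Bool) :=
  Measure.infinitePi fun _ => (PMF.uniformOfFintype Bool).toMeasure

/-- The random series `∑ ± λ ^ n`. -/
noncomputable def series (lam : ℝ) (ω : ℕ → Bool) : ℝ :=
  ∑' n, (if ω n then (1 : ℝ) else -1) * lam ^ n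

/-- The Bernoulli convolution. -/
noncomputable def bernoulliConv (lam : ℝ) : Measure ℝ :=
  coinSeq.map (series lam)

/-- A Pisot number: an algebraic integer `> 1` whose other conjugates have modulus `< 1`. -/
def IsPisot (β : ℝ) : Prop :=
  1 < β ∧ IsIntegral ℤ β ∧
    ∀ w : ℂ, (Polynomial.aeval w) (minpoly ℚ β) = 0 → w ≠ (β : ℂ) → ‖w‖ < 1

/-- The Salem number, root of `x ^ 4 - 2 x ^ 3 + x ^ 2 - 2 x + 1` in `(1, 2)`. -/
noncomputable def salem : ℝ := ((1 + √2) + √(2 * √2 - 1)) / 2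

/-- Its conjugate on the unit circle. -/
noncomputable def zee : ℂ := ⟨(1 - √2) / 2, √(1 - ((1 - √2) / 2) ^ 2)⟩

/-- The invariant of the iteration with quality `ε`. -/
def Inv (β : ℝ) (z : ℂ) (t : ℝ) (G : ℕ) (D C ε : ℝ) : Prop :=
  ∃ (ti : ℝ) (c : ℂ) (S : ℝ), State β z t ti c D (1 / 32) G C S ∧ 1 ≤ G ∧ 0 < D ∧
    D * √(G : ℝ) ≤ ε * C ∧ D * S ≤ ε ∧ β⁻¹ ^ G ≤ D ^ 4 ∧ β⁻¹ ^ G ≤ C ^ 8 ∧ β ^ G ≤ t ^ 2

/-- Threshold from which the iteration contracts. -/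
noncomputable def eps0 : ℝ := 1 / 100000

/-- Certificate: the invariant is reached below the threshold. -/
def InitStmt : Prop := ∃ t G D C, Inv salem zee t G D C eps0

/-- One asymptotic step. -/
def AsympStmt : Prop :=
  ∀ (β : ℝ) (z : ℂ), 3 / 2 ≤ β → β ≤ 2 → ‖z‖ = 1 → ∀ t G D C ε, ε ≤ eps0 →
    Inv β z t G D C ε → ∃ t' G' D' C', Inv β z t' G' D' C' (ε / 2)

/-- Arbitrarily good invariants force singularity. -/
def FinalStmt : Prop :=
  ∀ (β : ℝ) (z : ℂ), 3 / 2 ≤ β → β < 2 → ‖z‖ = 1 →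
    (∀ ε : ℝ, 0 < ε → ∃ t G D C, Inv β z t G D C ε) →
    bernoulliConv β⁻¹ ⟂ₘ volume

/-- Facts about the parameter. -/
def ParamStmt : Prop :=
  3 / 2 ≤ salem ∧ salem < 2 ∧ ‖zee‖ = 1 ∧ ¬ IsPisot salem

end Vale.Agent.P105
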