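import Vale.Agent.P105.Measure

/-!
From states of arbitrarily good quality to singularity of the Bernoulli convolution.
-/

namespace Vale.Agent.P105

open MeasureTheory Filter Finset Real
open scoped Topology ENNReal

namespace State

variable {β : ℝ} {z : ℂ} {t ti : ℝ} {c : ℂ} {D A : ℝ} {G : ℕ} {C S : ℝ}

/-- A state multiplied by a power of the parameter. -/
theorem shift (h : State β z t ti c D A G C S) (hβ : 1 < β) (hz : ‖z‖ = 1) (L : ℕ) :
    State β z (t * β ^ L) (ti * β⁻¹ ^ L) (c * z ^ L) D A (G + L)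
      (C * exp (-6 * (2 * L * D ^ 2 + 2 * A ^ 2 / (1 - β⁻¹))))
      (S + 4 * (L * D + A / (1 - β⁻¹))) := by
  have hb : 0 < β := by linarith
  refine ⟨fun n => ?_, ?_, ?_, ?_, h.small, ?_, h.shift_cos_ge hβ hz L, h.shift_tan_le hβ hz L⟩
  · obtain ⟨m, hm⟩ := h.elem (n + L)
    refine ⟨m, ?_⟩
    rw [← hm, show c * z ^ L * z ^ n = c * z ^ (n + L) by ring]
    ring
  · rw [norm_mul, norm_pow, hz, one_pow, mul_one]
    exact h.hc
  · rw [abs_mul, abs_of_nonneg (by positivity : (0 : ℝ) ≤ β⁻¹ ^ L)]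
    exact (mul_le_of_le_one_right (abs_nonneg _)
      (pow_le_one₀ (by positivity) (inv_le_one_of_one_le₀ hβ.le))).trans h.hti
  · rw [abs_mul, abs_of_pos (pow_pos hb L), add_comm G L, shift_add (t := |t|) hβ]
    exact h.tail
  · have := h.Cpos
    positivity

/-- Interaction of two distant shifts of the multiplier. -/
theorem far_pair_le (h : State β z t ti c D A G C S) (hβ : 1 < β) (hz : ‖z‖ = 1) {a b : ℕ}
    (hab : a + 3 * G ≤ b) (N : ℕ) :
    ∑ n ∈ range N, |tan (π * (t * β ^ b * β⁻¹ ^ n))| * |tan (π * (t * β ^ a * β⁻¹ ^ n))| ≤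
      4 * (D + A * β⁻¹ ^ G) * (2 * S + 4 * (((a : ℝ) + b) * D + 2 * (A / (1 - β⁻¹)))) := by
  have hr0 : 0 ≤ β⁻¹ := by positivity
  have hr : β⁻¹ ≤ 1 := inv_le_one_of_one_le₀ hβ.le
  have hA := h.A_nonneg
  have hD := h.D_nonneg
  set e : ℝ := 4 * (D + A * β⁻¹ ^ G) with he
  have he0 : 0 ≤ e := by positivity
  have hpt : ∀ n, |tan (π * (t * β ^ b * β⁻¹ ^ n))| * |tan (π * (t * β ^ a * β⁻¹ ^ n))| ≤
      e * |tan (π * (t * β ^ a * β⁻¹ ^ n))| + e * |tan (π * (t * β ^ b * β⁻¹ ^ n))| := by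
    intro n
    rcases lt_or_ge n (a + 2 * G) with hn | hn
    · refine le_add_of_le_of_nonneg ?_ (by positivity)
      refine mul_le_mul_of_nonneg_right ?_ (abs_nonneg _)
      obtain ⟨k, hk⟩ := h.near hβ hz (b - n)
      rw [shift_eq hβ, if_pos (by omega)]
      refine (abs_tan_le hk (h.near_bound hβ _)).trans ?_
      have : A * β⁻¹ ^ (b - n) ≤ A * β⁻¹ ^ G :=
        mul_le_mul_of_nonneg_left (pow_le_pow_of_le_one hr0 hr (by omega)) hA
      linarith
    · refine le_add_of_nonneg_of_le (by positivity) ?_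
      rw [mul_comm]
      refine mul_le_mul_of_nonneg_right ?_ (abs_nonneg _)
      have hf := (h.shift hβ hz a).far hβ (show G + a ≤ n by omega)
      have hle : A * β⁻¹ ^ (n - (G + a)) ≤ A * β⁻¹ ^ G :=
        mul_le_mul_of_nonneg_left (pow_le_pow_of_le_one hr0 hr (by omega)) hA
      have h18 : A * β⁻¹ ^ (n - (G + a)) ≤ 1 / 8 := by
        have := h.near_bound hβ (n - (G + a)); linarith
      calc |tan (π * (t * β ^ a * β⁻¹ ^ n))| ≤ 4 * (A * β⁻¹ ^ (n - (G + a))) := abs_tan_le hf h18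
        _ ≤ e := by linarith
  refine (sum_le_sum fun n _ => hpt n).trans ?_
  rw [sum_add_distrib, ← mul_sum, ← mul_sum]
  have h1 := mul_le_mul_of_nonneg_left (h.shift_tan_le hβ hz a N) he0
  have h2 := mul_le_mul_of_nonneg_left (h.shift_tan_le hβ hz b N) he0
  linarith

end State

theorem abs_integral_cos_le (a R : ℝ) (ha : a ≠ 0) :
    |∫ y in (-R)..R, cos (a * y)| ≤ 2 / |a| := by
  rw [intervalIntegral.integral_comp_mul_left (fun y => cos y) ha, integral_cos, smul_eq_mul,
    abs_mul, abs_inv, div_eq_inv_mul]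
  gcongr
  refine (abs_sub _ _).trans ?_
  linarith [abs_sin_le_one (a * R), abs_sin_le_one (a * -R)]

/-- The second moment of a signed sum. -/
theorem integral_sum_sq {α : Type*} [MeasurableSpace α] (m : Measure α) {K : ℕ} (s : ℕ → ℝ)
    (F : ℕ → α → ℝ) (hF : ∀ i j, Integrable (fun a => F i a * F j a) m) :
    ∫ a, (∑ k ∈ range K, s k * F k a) ^ 2 ∂m =
      ∑ i ∈ range K, ∑ j ∈ range K, s i * s j * ∫ a, F i a * F j a ∂m := by
  have e : ∀ a, (∑ k ∈ range K, s k * F k a) ^ 2 =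
      ∑ i ∈ range K, ∑ j ∈ range K, s i * s j * (F i a * F j a) := by
    intro a
    rw [sq, Finset.sum_mul_sum]
    exact sum_congr rfl fun i _ => sum_congr rfl fun j _ => by ring
  simp_rw [e]
  rw [integral_finsetSum _ fun i _ => integrable_finsetSum _ fun j _ => (hF i j).const_mul _]
  refine sum_congr rfl fun i _ => ?_
  rw [integral_finsetSum _ fun j _ => (hF i j).const_mul _]
  simp_rw [integral_const_mul]

theorem cos_mul_cos_eq (x y : ℝ) : cos x * cos y = (cos (x + y) + cos (x - y)) / 2 := by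
  rw [cos_add, cos_sub]; ring

theorem integrable_comp_series {lam : ℝ} (h0 : 0 ≤ lam) (h1 : lam < 1) {g : ℝ → ℝ}
    (hg : Continuous g) : Integrable (fun ω => g (series lam ω)) coinSeq :=
  (hg.comp (continuous_series h0 h1)).integrable_of_hasCompactSupport
    (HasCompactSupport.of_compactSpace _)

theorem integral_cos_mul_cos {lam : ℝ} (h0 : 0 ≤ lam) (h1 : lam < 1) (x y : ℝ) :
    ∫ ω, cos (x * series lam ω) * cos (y * series lam ω) ∂coinSeq =
      (charF lam (x + y) + charF lam (x - y)) / 2 := by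
  simp_rw [cos_mul_cos_eq, ← add_mul, ← sub_mul]
  rw [integral_div, integral_add (integrable_comp_series h0 h1 (g := fun u => cos ((x + y) * u))
    (by fun_prop)) (integrable_comp_series h0 h1 (g := fun u => cos ((x - y) * u)) (by fun_prop))]
  rfl

theorem signed_eq {φ : ℕ → ℝ} (k : ℕ) : (if 0 ≤ φ k then (1 : ℝ) else -1) * φ k = |φ k| := by
  split_ifs with hs
  · rw [abs_of_nonneg hs, one_mul]
  · rw [abs_of_neg (not_le.mp hs), neg_one_mul]

/-- Chebyshev bound for the convolution, from decoupling of the frequencies. -/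
theorem conv_bound {lam : ℝ} (h0 : 0 ≤ lam) (h1 : lam < 1) (K : ℕ) (x s : ℕ → ℝ) {μ δ : ℝ}
    (hs : ∀ k, |s k| = 1) (hsφ : ∀ k, s k * charF lam (x k) = |charF lam (x k)|)
    (hμ : ∑ k ∈ range K, |charF lam (x k)| = μ) (hμpos : 0 < μ) (hδ : 0 ≤ δ)
    (hdec : ∀ i ∈ range K, ∀ j ∈ range K, i ≠ j →
      |∫ ω, cos (x i * series lam ω) * cos (x j * series lam ω) ∂coinSeq
          - charF lam (x i) * charF lam (x j)| ≤
        δ * (|charF lam (x i)| * |charF lam (x j)|)) :
    bernoulliConv lam {y | μ / 2 ≤ ∑ k ∈ range K, s k * cos (x k * y)}ᶜ ≤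
      ENNReal.ofReal (4 * (K / μ ^ 2 + δ)) := by
  set f : ℝ → ℝ := fun y => ∑ k ∈ range K, s k * cos (x k * y) with hf
  have hfc : Continuous f := by fun_prop
  set φ : ℕ → ℝ := fun k => charF lam (x k) with hφ
  set F : (ℕ → Bool) → ℝ := fun ω => f (series lam ω) with hF
  have hint : ∀ g : ℝ → ℝ, Continuous g → Integrable (fun ω => g (series lam ω)) coinSeq :=
    fun g hg => integrable_comp_series h0 h1 hg
  have hEF : ∫ ω, F ω ∂coinSeq = μ := by
    simp only [hF, hf]
    rw [integral_finsetSum _ fun k _ => hint (fun y => s k * cos (x k * y)) (by fun_prop), ← hμ]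
    refine sum_congr rfl fun k _ => ?_
    rw [integral_const_mul, ← hsφ]
    rfl
  have hEF2 : ∫ ω, F ω ^ 2 ∂coinSeq ≤ K + (1 + δ) * μ ^ 2 := by
    simp only [hF, hf]
    rw [integral_sum_sq coinSeq s (fun k ω => cos (x k * series lam ω))
      fun i j => hint (fun y => cos (x i * y) * cos (x j * y)) (by fun_prop)]
    calc _ ≤ ∑ i ∈ range K, ∑ j ∈ range K,
          ((if i = j then (1 : ℝ) else 0) + (1 + δ) * (|φ i| * |φ j|)) := by
          refine sum_le_sum fun i hi => sum_le_sum fun j hj => ?_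
          split_ifs with hij
          · subst hij
            refine le_add_of_le_of_nonneg ?_ (by positivity)
            refine (le_abs_self _).trans ?_
            rw [abs_mul, abs_mul, hs, one_mul, one_mul]
            rw [← Real.norm_eq_abs]
            refine le_trans (norm_integral_le_of_norm_le_const (μ := coinSeq) (C := 1)
              (Eventually.of_forall fun ω => ?_)) (by simp)
            rw [Real.norm_eq_abs, abs_mul]
            exact mul_le_one₀ (abs_cos_le_one _) (abs_nonneg _) (abs_cos_le_one _)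
          · rw [zero_add]
            have h3 := hdec i hi j hj hij
            set I : ℝ := ∫ ω, cos (x i * series lam ω) * cos (x j * series lam ω) ∂coinSeq
            have h2 : s i * s j * (φ i * φ j) = |φ i| * |φ j| := by
              simp only [hφ]
              rw [← hsφ i, ← hsφ j]; ring
            have h4 : s i * s j * (I - φ i * φ j) ≤ δ * (|φ i| * |φ j|) := by
              refine (le_abs_self _).trans ?_
              rw [abs_mul, abs_mul, hs, hs, one_mul, one_mul]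
              exact h3
            linarith
      _ = _ := by
          simp only [sum_add_distrib, ← mul_sum, ← sum_mul, sum_ite_eq]
          simp only [hφ, hμ, sq]
          simp [Finset.filter_true_of_mem fun (a : ℕ) (ha : a ∈ range K) => mem_range.mp ha]
  rw [bernoulliConv, Measure.map_apply (measurable_series h0 h1)
      (isClosed_le continuous_const hfc).measurableSet.compl,
    ← ofReal_measureReal (measure_ne_top _ _)]
  refine ENNReal.ofReal_le_ofReal ?_
  have hFi : Integrable F coinSeq := hint f hfc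
  have hF2i : Integrable (fun ω => F ω ^ 2) coinSeq := hint (fun y => f y ^ 2) (by fun_prop)
  have hFci : Integrable (fun ω => (F ω - μ) ^ 2) coinSeq :=
    hint (fun y => (f y - μ) ^ 2) (by fun_prop)
  have hcheb := mul_meas_ge_le_integral_of_nonneg (μ := coinSeq)
    (Eventually.of_forall fun ω => sq_nonneg (F ω - μ)) hFci ((μ / 2) ^ 2)
  have hsub : (series lam) ⁻¹' {y | μ / 2 ≤ f y}ᶜ ⊆ {ω | (μ / 2) ^ 2 ≤ (F ω - μ) ^ 2} := by
    intro ω hω
    simp only [Set.mem_preimage, Set.mem_compl_iff, Set.mem_ofPred_eq, not_le] at hω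
    rw [Set.mem_ofPred_eq, show (F ω - μ) ^ 2 = (μ - F ω) ^ 2 by ring]
    exact pow_le_pow_left₀ (by positivity) (by linarith) 2
  refine (measureReal_mono hsub).trans ?_
  have hvar : ∫ ω, (F ω - μ) ^ 2 ∂coinSeq ≤ K + δ * μ ^ 2 := by
    have e : (fun ω => (F ω - μ) ^ 2) = fun ω => (F ω ^ 2 - 2 * μ * F ω) + μ ^ 2 := by
      funext ω; ring
    rw [e, integral_add (f := fun ω => F ω ^ 2 - 2 * μ * F ω) (hF2i.sub (hFi.const_mul _))
      (integrable_const _), integral_sub hF2i (hFi.const_mul _), integral_const_mul, hEF,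
      integral_const, probReal_univ, one_smul]
    linarith
  refine le_of_mul_le_mul_left (hcheb.trans (hvar.trans (le_of_eq ?_)))
    (show 0 < (μ / 2) ^ 2 by positivity)
  field_simp
  ring

theorem measure_compl_aux {K : ℕ} {μ : ℝ} (x s : ℕ → ℝ) :
    MeasurableSet {y : ℝ | μ / 2 ≤ ∑ k ∈ range K, s k * cos (x k * y)} :=
  (isClosed_le continuous_const (by fun_prop)).measurableSet

/-- Chebyshev bound for Lebesgue measure, from separation of the frequencies. -/
theorem leb_bound (K : ℕ) (x s : ℕ → ℝ) {μ τ : ℝ} (hs : ∀ k, |s k| = 1) (hμpos : 0 < μ)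
    (hτ : 0 < τ) (hsep : ∀ i j : ℕ, j < i → τ ≤ |x i + x j| ∧ τ ≤ |x i - x j|) :
    volume ({y | μ / 2 ≤ ∑ k ∈ range K, s k * cos (x k * y)} ∩ Set.Icc (-3) 3) ≤
      ENNReal.ofReal (4 * (K * 6 + (K : ℝ) ^ 2 * (2 / τ)) / μ ^ 2) := by
  set f : ℝ → ℝ := fun y => ∑ k ∈ range K, s k * cos (x k * y) with hf
  set m : Measure ℝ := volume.restrict (Set.Icc (-3) 3) with hm
  rw [← Measure.restrict_apply' measurableSet_Icc, ← hm, ← ofReal_measureReal (measure_ne_top _ _)]
  refine ENNReal.ofReal_le_ofReal ?_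
  have hintm : ∀ g : ℝ → ℝ, Continuous g → Integrable g m := fun g hg =>
    hg.continuousOn.integrableOn_compact isCompact_Icc
  have hcheb := mul_meas_ge_le_integral_of_nonneg (μ := m)
    (f := fun y => f y ^ 2) (Eventually.of_forall fun y => sq_nonneg _)
    (hintm _ (by fun_prop)) ((μ / 2) ^ 2)
  have hsub : {y | μ / 2 ≤ f y} ⊆ {y | (μ / 2) ^ 2 ≤ f y ^ 2} :=
    fun y hy => pow_le_pow_left₀ (show 0 ≤ μ / 2 by positivity) hy 2
  refine (measureReal_mono hsub).trans ?_
  have hconv : ∀ g : ℝ → ℝ, ∫ y, g y ∂m = ∫ y in (-3 : ℝ)..3, g y := fun g => by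
    rw [intervalIntegral.integral_of_le (by norm_num), hm, integral_Icc_eq_integral_Ioc]
  have bd : ∀ a : ℝ, τ ≤ |a| → |∫ y in (-3 : ℝ)..3, cos (a * y)| ≤ 2 / τ := fun a ha' =>
    (abs_integral_cos_le a 3 (abs_pos.mp (hτ.trans_le ha'))).trans (by gcongr)
  have hoff : ∀ i j : ℕ, j < i → |∫ y, cos (x i * y) * cos (x j * y) ∂m| ≤ 2 / τ := by
    intro i j hji
    simp_rw [cos_mul_cos_eq, ← add_mul, ← sub_mul]
    rw [integral_div, integral_add (hintm _ (by fun_prop)) (hintm _ (by fun_prop)), hconv, hconv]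
    have b1 := bd _ (hsep i j hji).1
    have b2 := bd _ (hsep i j hji).2
    rw [abs_le] at b1 b2 ⊢
    constructor <;> linarith
  have hL2 : ∫ y, f y ^ 2 ∂m ≤ K * 6 + (K : ℝ) ^ 2 * (2 / τ) := by
    simp only [hf]
    rw [integral_sum_sq m s (fun k y => cos (x k * y)) fun i j => hintm _ (by fun_prop)]
    calc _ ≤ ∑ i ∈ range K, ∑ j ∈ range K, ((if i = j then (6 : ℝ) else 0) + 2 / τ) := by
          refine sum_le_sum fun i hi => sum_le_sum fun j hj => ?_
          refine (le_abs_self _).trans ?_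
          rw [abs_mul, abs_mul, hs, hs, one_mul, one_mul]
          rcases lt_trichotomy i j with hij | hij | hij
          · rw [if_neg hij.ne, zero_add]
            simpa only [mul_comm (cos (x i * _))] using hoff j i hij
          · subst hij
            rw [if_pos rfl]
            refine le_add_of_le_of_nonneg ?_ (by positivity)
            rw [← Real.norm_eq_abs]
            refine le_trans (norm_integral_le_of_norm_le_const (μ := m) (C := 1)
              (Eventually.of_forall fun y => ?_)) (le_of_eq ?_)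
            · rw [Real.norm_eq_abs, abs_mul]
              exact mul_le_one₀ (abs_cos_le_one _) (abs_nonneg _) (abs_cos_le_one _)
            · rw [hm, measureReal_restrict_apply_univ, Real.volume_real_Icc_of_le (by norm_num)]
              norm_num
          · rw [if_neg hij.ne', zero_add]
            exact hoff i j hij
      _ = _ := by
          simp only [sum_add_distrib, sum_const, card_range, nsmul_eq_mul, sum_ite_eq]
          rw [sum_congr rfl fun i hi => if_pos hi]
          simp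
          ring
  refine le_of_mul_le_mul_left (hcheb.trans (hL2.trans (le_of_eq ?_)))
    (show 0 < (μ / 2) ^ 2 by positivity)
  field_simp
  ring

/-- The separation of the frequencies. -/
theorem sep_bound {β t : ℝ} (hβ : 3 / 2 ≤ β) {G : ℕ} (hG : 1 ≤ G) {i j : ℕ} (hji : j < i) :
    |t| ≤ |π * (t * β ^ (3 * G * i)) + π * (t * β ^ (3 * G * j))| ∧
      |t| ≤ |π * (t * β ^ (3 * G * i)) - π * (t * β ^ (3 * G * j))| := by
  set q : ℕ → ℝ := fun k => β ^ (3 * G * k) with hq
  have hβ1 : 1 < β := by linarith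
  have h2 : 1 ≤ q j := one_le_pow₀ hβ1.le
  have h1 : β ^ (3 * G * j + 1) ≤ q i := by
    refine pow_le_pow_right₀ hβ1.le ?_
    have : 3 * G * j + 3 * G ≤ 3 * G * i := by
      rw [← Nat.mul_succ]; exact Nat.mul_le_mul_left _ hji
    omega
  rw [pow_succ] at h1
  have h3 := mul_le_mul_of_nonneg_left hβ (by linarith : (0 : ℝ) ≤ q j)
  simp only [hq] at h2 h3 h1 ⊢
  have hsum : ∀ r, 1 / 2 ≤ r → |t| ≤ |π * (t * r)| := by
    intro r hr
    rw [abs_mul, abs_mul, abs_of_pos pi_pos, abs_of_pos (by linarith : 0 < r)]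
    have h4 : 1 ≤ π * r := by
      have := mul_le_mul_of_nonneg_left hr pi_pos.le
      linarith [pi_gt_three]
    calc |t| = |t| * 1 := (mul_one _).symm
      _ ≤ |t| * (π * r) := mul_le_mul_of_nonneg_left h4 (abs_nonneg _)
      _ = _ := by ring
  exact ⟨(hsum (β ^ (3 * G * i) + β ^ (3 * G * j)) (by linarith)).trans_eq (by ring_nf),
    (hsum (β ^ (3 * G * i) - β ^ (3 * G * j)) (by linarith)).trans_eq (by ring_nf)⟩

/-- A test set of quality `ε`. -/
theorem exists_test_set {β : ℝ} {z : ℂ} {t : ℝ} {G : ℕ} {D C ε : ℝ} (hβ : 3 / 2 ≤ β)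
    (hz : ‖z‖ = 1) (hI : Inv β z t G D C ε) (hε : ε ≤ 1 / 1000) :
    ∃ B : Set ℝ, MeasurableSet B ∧ bernoulliConv β⁻¹ Bᶜ ≤ ENNReal.ofReal (1000 * ε) ∧
      volume (B ∩ Set.Icc (-3) 3) ≤ ENNReal.ofReal (1000 * ε) := by
  obtain ⟨ti, c, S, h, hG, hD, hDG, hDS, hlD, hlC, hbt⟩ := hI
  have hβ1 : 1 < β := by linarith
  have hb0 : 0 < β := by linarith
  have hl0 : 0 ≤ β⁻¹ := by positivity
  have hl23 : β⁻¹ ≤ 2 / 3 := by
    rw [inv_le_comm₀ hb0 (by norm_num)]; norm_num; linarith
  have hl1 : β⁻¹ < 1 := by linarith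
  have hC := h.Cpos
  have hC1 := h.C_le_one
  have hG1 : (1 : ℝ) ≤ G := by exact_mod_cast hG
  have hsq : 1 ≤ √(G : ℝ) := Real.one_le_sqrt.mpr hG1
  have hε0 : 0 < ε := by
    by_contra hcon
    have : ε * C ≤ 0 := mul_nonpos_of_nonpos_of_nonneg (not_lt.mp hcon) hC.le
    have : 0 < D * √(G : ℝ) := by positivity
    linarith
  have hDε : D ≤ ε :=
    ((le_mul_of_one_le_right hD.le hsq).trans hDG).trans (mul_le_of_le_one_right hε0.le hC1)
  have hGD : G * D ^ 2 ≤ ε ^ 2 * C ^ 2 := by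
    have := pow_le_pow_left₀ (by positivity) hDG 2
    rw [mul_pow, mul_pow, Real.sq_sqrt (by positivity)] at this
    linarith
  have hHD : 0 < 3 * (G : ℝ) * D ^ 2 := by positivity
  set K : ℕ := ⌊ε / (3 * G * D ^ 2)⌋₊ with hK
  have hKle : (K : ℝ) * (3 * G * D ^ 2) ≤ ε :=
    (le_div_iff₀ hHD).mp (Nat.floor_le (by positivity))
  have hKC : 1 / (4 * ε) ≤ K * C ^ 2 := by
    have h1 := Nat.lt_floor_add_one (ε / (3 * G * D ^ 2))
    rw [← hK, div_lt_iff₀ hHD] at h1
    have h2 : ε ≤ ((K : ℝ) + 1) * (3 * (ε ^ 2 * C ^ 2)) :=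
      h1.le.trans (mul_le_mul_of_nonneg_left (by linarith) (by positivity))
    have h3 : 1 ≤ ((K : ℝ) + 1) * (3 * (ε * C ^ 2)) :=
      le_of_mul_le_mul_left (by linarith [h2] : ε * 1 ≤ ε * (((K : ℝ) + 1) * (3 * (ε * C ^ 2)))) hε0
    have h4 : ε * C ^ 2 ≤ 1 / 1000 :=
      (mul_le_of_le_one_right hε0.le (pow_le_one₀ hC.le hC1)).trans hε
    rw [div_le_iff₀ (by positivity)]
    linarith
  have hKpos : (0 : ℝ) < K := by
    rcases Nat.eq_zero_or_pos K with h0 | h0
    · rw [h0, Nat.cast_zero, zero_mul] at hKC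
      exact absurd hKC (not_le.mpr (by positivity))
    · exact_mod_cast h0
  -- the frequencies
  set x : ℕ → ℝ := fun k => π * (t * β ^ (3 * G * k)) with hx
  have xmul : ∀ k n : ℕ, x k * β⁻¹ ^ n = π * (t * β ^ (3 * G * k) * β⁻¹ ^ n) := by
    intro k n; simp only [hx]; ring
  have ha : ∀ k ∈ range K, ((3 * G * k : ℕ) : ℝ) * D ^ 2 ≤ ε := by
    intro k hk
    refine le_trans ?_ hKle
    have : (k : ℝ) ≤ K := by exact_mod_cast (mem_range.mp hk).le
    push_cast
    nlinarith [mul_le_mul_of_nonneg_left this hHD.le]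
  have hne : ∀ k n : ℕ, cos (x k * β⁻¹ ^ n) ≠ 0 := fun k n => by
    rw [xmul]; exact h.shift_cos_ne hβ1 hz _ n
  have hdiv : (1 / 32 : ℝ) / (1 - β⁻¹) ≤ 3 / 32 := by
    rw [div_le_iff₀ (by linarith)]; linarith
  have hdiv0 : 0 ≤ (1 / 32 : ℝ) / (1 - β⁻¹) := div_nonneg (by norm_num) (by linarith)
  set φ : ℕ → ℝ := fun k => charF β⁻¹ (x k) with hφ
  have hφC : ∀ k ∈ range K, C / 2 ≤ |φ k| := by
    intro k hk
    refine abs_charF_ge hl0 hl1 fun N => ?_
    refine le_trans ?_ ((h.shift_cos_ge hβ1 hz (3 * G * k) N).trans_eq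
      (prod_congr rfl fun n _ => by rw [xmul]))
    rw [div_eq_mul_inv]
    refine mul_le_mul_of_nonneg_left ?_ hC.le
    refine le_trans ?_ (add_one_le_exp _)
    have h1 := ha k hk
    have h2 : 2 * (1 / 32 : ℝ) ^ 2 / (1 - β⁻¹) = 1 / 16 * ((1 / 32) / (1 - β⁻¹)) := by ring
    rw [h2]
    linarith
  -- decoupling
  have hη : ∀ i ∈ range K, ∀ j ∈ range K, j < i → ∀ N, ∑ n ∈ range N,
      |tan (x i * β⁻¹ ^ n)| * |tan (x j * β⁻¹ ^ n)| ≤ 88 * ε := by
    intro i hi j hj hji N
    simp only [xmul]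
    have hab : 3 * G * j + 3 * G ≤ 3 * G * i := by
      rw [← Nat.mul_succ]; exact Nat.mul_le_mul_left _ hji
    refine (h.far_pair_le hβ1 hz hab N).trans ?_
    have hl4 : β⁻¹ ^ G ≤ D := hlD.trans (pow_le_of_le_one hD.le (by linarith) (by norm_num))
    have hs : 0 ≤ 2 * S + 4 * ((((3 * G * j : ℕ) : ℝ) + ((3 * G * i : ℕ) : ℝ)) * D
        + 2 * ((1 / 32) / (1 - β⁻¹))) := by
      have := h.S_nonneg
      positivity
    refine le_trans (mul_le_mul_of_nonneg_right
      (show 4 * (D + 1 / 32 * β⁻¹ ^ G) ≤ 8 * D by linarith) hs) ?_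
    have h1 := ha i hi
    have h2 := ha j hj
    have h3 := mul_le_mul_of_nonneg_left hdiv hD.le
    linarith
  have hdec : ∀ i ∈ range K, ∀ j ∈ range K, i ≠ j →
      |∫ ω, cos (x i * series β⁻¹ ω) * cos (x j * series β⁻¹ ω) ∂coinSeq - φ i * φ j| ≤
        176 * ε * (|φ i| * |φ j|) := by
    intro i hi j hj hij
    wlog hji : j < i generalizing i j
    · have := this j hj i hi hij.symm (by omega)
      rw [mul_comm (φ j), mul_comm |φ j|] at this
      simpa only [mul_comm (cos (x j * series β⁻¹ _))] using this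
    have hexp : exp (88 * ε) - 1 ≤ 176 * ε := by
      have := abs_exp_sub_one_le (x := 88 * ε) (by rw [abs_of_nonneg (by positivity)]; linarith)
      rw [abs_of_nonneg (show 0 ≤ 88 * ε by positivity)] at this
      linarith [le_abs_self (exp (88 * ε) - 1)]
    have hp := abs_charF_add_sub hl0 hl1 (hne i) (hne j) (hη i hi j hj hji)
    have hm := abs_charF_sub_sub hl0 hl1 (hne i) (hne j) (hη i hi j hj hji)
    rw [abs_mul (charF β⁻¹ (x i))] at hp hm
    have hbd : |φ i| * |φ j| * (exp (88 * ε) - 1) ≤ 176 * ε * (|φ i| * |φ j|) :=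
      (mul_le_mul_of_nonneg_left hexp (by positivity)).trans_eq (by ring)
    rw [integral_cos_mul_cos hl0 hl1]
    simp only [hφ] at hbd ⊢
    rw [abs_le] at hp hm ⊢
    constructor <;> linarith
  -- the test function
  set sg : ℕ → ℝ := fun k => if 0 ≤ φ k then 1 else -1 with hsg
  have hsgφ : ∀ k, sg k * φ k = |φ k| := signed_eq
  have hsg1 : ∀ k, |sg k| = 1 := fun k => by simp only [hsg]; split_ifs <;> simp
  set μ : ℝ := ∑ k ∈ range K, |φ k| with hμ
  have hμC : K * (C / 2) ≤ μ := by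
    simpa using card_nsmul_le_sum (range K) (fun k => |φ k|) (C / 2) hφC
  have hμpos : 0 < μ := lt_of_lt_of_le (by positivity) hμC
  have hμ2 : (K : ℝ) ^ 2 * C ^ 2 ≤ 4 * μ ^ 2 := by
    have := pow_le_pow_left₀ (by positivity) hμC 2
    linarith
  have hK' : (K : ℝ) / μ ^ 2 ≤ 16 * ε := by
    rw [div_le_iff₀ (by positivity)]
    rw [div_le_iff₀ (by positivity)] at hKC
    have h1 := mul_le_mul_of_nonneg_left hKC hKpos.le
    have h2 := mul_le_mul_of_nonneg_left hμ2 hε0.le
    linarith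
  have ht2 : 0 < t ^ 2 := lt_of_lt_of_le (pow_pos hb0 G) hbt
  have ht : 0 < |t| := abs_pos.mpr fun h0 => by simp [h0] at ht2
  have htC : 1 / |t| ≤ ε * C ^ 2 := by
    rw [div_le_iff₀ ht]
    refine le_of_pow_le_pow_left₀ (n := 4) (by norm_num) (by positivity) ?_
    have hpow : (ε * C ^ 2 * |t|) ^ 4 = ε ^ 4 * C ^ 8 * (t ^ 2) ^ 2 := by
      rw [← sq_abs t]; ring
    rw [one_pow, hpow]
    calc (1 : ℝ) = β⁻¹ ^ G * β⁻¹ ^ G * (β ^ G) ^ 2 := by
          rw [inv_pow]; field_simp
      _ ≤ D ^ 4 * C ^ 8 * (t ^ 2) ^ 2 := by gcongr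
      _ ≤ _ := by gcongr
  refine ⟨_, measure_compl_aux x sg (K := K) (μ := μ), ?_, ?_⟩
  · refine (conv_bound hl0 hl1 K x sg hsg1 hsgφ hμ.symm hμpos
      (show 0 ≤ 176 * ε by positivity) hdec).trans (ENNReal.ofReal_le_ofReal ?_)
    linarith
  · refine (leb_bound K x sg hsg1 hμpos ht fun i j hji => sep_bound hβ hG hji).trans
      (ENNReal.ofReal_le_ofReal ?_)
    have h3 : (K : ℝ) ^ 2 * (2 / |t|) ≤ 8 * ε * μ ^ 2 := by
      rw [show (2 : ℝ) / |t| = 2 * (1 / |t|) by ring]
      have h1 := mul_le_mul_of_nonneg_left htC (sq_nonneg (K : ℝ))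
      have h2 := mul_le_mul_of_nonneg_left hμ2 hε0.le
      linarith
    rw [div_le_iff₀ (by positivity)] at hK' ⊢
    have : 0 ≤ ε * μ ^ 2 := by positivity
    linarith

/-- Arbitrarily good states force singularity. -/
theorem final : FinalStmt := by
  intro β z hβ hβ2 hz hInv
  set e : ℕ → ℝ := fun n => (1 / 2) ^ n / 1000 with he
  have he0 : ∀ n, 0 < e n := fun n => by positivity
  have he1 : ∀ n, e n ≤ 1 / 1000 := fun n =>
    div_le_div_of_nonneg_right (pow_le_one₀ (by norm_num) (by norm_num)) (by norm_num)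
  have hex : ∀ n, ∃ B : Set ℝ, MeasurableSet B ∧
      bernoulliConv β⁻¹ Bᶜ ≤ ENNReal.ofReal (1000 * e n) ∧
      volume (B ∩ Set.Icc (-3) 3) ≤ ENNReal.ofReal (1000 * e n) := by
    intro n
    obtain ⟨t, G, D, C, hI⟩ := hInv (e n) (he0 n)
    exact exists_test_set hβ hz hI (he1 n)
  choose B hBm hBν hBv using hex
  set E : Set ℝ := ⋃ m, ⋂ n, ⋂ _ : m ≤ n, B n ∩ Set.Icc (-3) 3 with hE
  have hEm : MeasurableSet E := MeasurableSet.iUnion fun m => MeasurableSet.iInter fun n =>
    MeasurableSet.iInter fun _ => (hBm n).inter measurableSet_Icc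
  have hpow : Tendsto (fun n => 1000 * e n) atTop (𝓝 0) := by
    have : (fun n => 1000 * e n) = fun n : ℕ => (1 / 2 : ℝ) ^ n := by
      funext n; simp only [he]; ring
    rw [this]
    exact tendsto_pow_atTop_nhds_zero_of_lt_one (by norm_num) (by norm_num)
  refine ⟨Eᶜ, hEm.compl, ?_, ?_⟩
  · have hl1 : β⁻¹ < 1 := inv_lt_one_of_one_lt₀ (by linarith)
    have hl0 : 0 ≤ β⁻¹ := inv_nonneg.mpr (by linarith)
    have hsum : (∑' n, bernoulliConv β⁻¹ (B n)ᶜ) ≠ ∞ := by
      refine ne_top_of_le_ne_top ?_ (ENNReal.tsum_le_tsum hBν)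
      rw [← ENNReal.ofReal_tsum_of_nonneg (fun n => by positivity)]
      · exact ENNReal.ofReal_ne_top
      · have : (fun n => 1000 * e n) = fun n : ℕ => (1 / 2 : ℝ) ^ n := by
          funext n; simp only [he]; ring
        rw [this]
        exact summable_geometric_two
    have h1 : ∀ᵐ y ∂bernoulliConv β⁻¹, ∀ᶠ n in atTop, y ∈ B n :=
      (ae_eventually_notMem hsum).mono fun y hy => hy.mono fun n hn => Set.notMem_compl_iff.mp hn
    have h2 : ∀ᵐ y ∂bernoulliConv β⁻¹, y ∈ Set.Icc (-3 : ℝ) 3 := by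
      rw [bernoulliConv]
      refine (ae_map_iff (measurable_series hl0 hl1).aemeasurable measurableSet_Icc).mpr ?_
      refine Eventually.of_forall fun ω => abs_le.mp ((abs_series_le hl0 hl1 ω).trans ?_)
      rw [inv_le_comm₀ (by linarith) (by norm_num)]
      have : β⁻¹ ≤ (3 / 2 : ℝ)⁻¹ := inv_anti₀ (by norm_num) hβ
      norm_num at this ⊢
      linarith
    have h3 : ∀ᵐ y ∂bernoulliConv β⁻¹, y ∈ E := by
      filter_upwards [h1, h2] with y hy hyI
      obtain ⟨m, hm⟩ := eventually_atTop.mp hy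
      simp only [hE, Set.mem_iUnion, Set.mem_iInter]
      exact ⟨m, fun n hn => ⟨hm n hn, hyI⟩⟩
    exact ae_iff.mp h3
  · rw [compl_compl, hE]
    refine measure_iUnion_null fun m => le_antisymm ?_ zero_le
    refine ge_of_tendsto (ENNReal.tendsto_ofReal hpow) ?_ |>.trans_eq ENNReal.ofReal_zero
    filter_upwards [eventually_ge_atTop m] with n hn
    exact (measure_mono (Set.iInter₂_subset n hn)).trans (hBv n)

end Vale.Agent.P105
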