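import Vale.Agent.P105.Defs

/-!
The characteristic function of the Bernoulli convolution as a limit of finite products of cosines.
-/

namespace Vale.Agent.P105

open MeasureTheory Filter Finset Real
open scoped Topology

instance : IsProbabilityMeasure coinSeq := by
  unfold coinSeq
  infer_instance

/-- A sign. -/
def sgn (b : Bool) : ℝ := if b then 1 else -1

theorem abs_sgn (b : Bool) : |sgn b| = 1 := by
  cases b <;> simp [sgn]

variable {lam : ℝ}

theorem norm_term_le (h0 : 0 ≤ lam) (ω : ℕ → Bool) (n : ℕ) :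
    ‖sgn (ω n) * lam ^ n‖ ≤ lam ^ n := by
  rw [Real.norm_eq_abs, abs_mul, abs_sgn, one_mul, abs_of_nonneg (pow_nonneg h0 n)]

theorem hasSum_series (h0 : 0 ≤ lam) (h1 : lam < 1) (ω : ℕ → Bool) :
    HasSum (fun n => sgn (ω n) * lam ^ n) (series lam ω) :=
  (Summable.of_norm_bounded (summable_geometric_of_lt_one h0 h1) (norm_term_le h0 ω)).hasSum

theorem abs_series_le (h0 : 0 ≤ lam) (h1 : lam < 1) (ω : ℕ → Bool) :
    |series lam ω| ≤ (1 - lam)⁻¹ :=
  tsum_of_norm_bounded (f := fun n => sgn (ω n) * lam ^ n)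
    (hasSum_geometric_of_lt_one h0 h1) (norm_term_le h0 ω)

theorem continuous_series (h0 : 0 ≤ lam) (h1 : lam < 1) : Continuous (series lam) := by
  refine continuous_tsum (fun n => ?_) (summable_geometric_of_lt_one h0 h1) fun n ω => norm_term_le h0 ω n
  exact ((continuous_of_discreteTopology (f := sgn)).comp (continuous_apply n)).mul continuous_const

theorem measurable_series (h0 : 0 ≤ lam) (h1 : lam < 1) : Measurable (series lam) :=
  (continuous_series h0 h1).measurable

theorem integral_coin (a : ℝ) :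
    ∫ b : Bool, Complex.exp (((a * sgn b : ℝ) : ℂ) * Complex.I)
      ∂(PMF.uniformOfFintype Bool).toMeasure = (Real.cos a : ℂ) := by
  rw [PMF.integral_eq_sum]
  simp only [Fintype.sum_bool, PMF.uniformOfFintype_apply, Fintype.card_bool]
  simp only [sgn, if_true, Bool.false_eq_true, if_false, mul_one, mul_neg]
  rw [Complex.ofReal_cos]
  simp only [Complex.cos, Complex.ofReal_neg, Complex.real_smul]
  norm_num
  ring

theorem integral_cos_finite (x lam : ℝ) (N : ℕ) :
    ∫ ω, Real.cos (x * ∑ n ∈ range N, sgn (ω n) * lam ^ n) ∂coinSeq =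
      ∏ n ∈ range N, Real.cos (x * lam ^ n) := by
  have hm : Continuous fun ω : ℕ → Bool =>
      Complex.exp (((x * ∑ n ∈ range N, sgn (ω n) * lam ^ n : ℝ) : ℂ) * Complex.I) := by
    have : ∀ n, Continuous fun ω : ℕ → Bool => sgn (ω n) := fun n =>
      (continuous_of_discreteTopology (f := sgn)).comp (continuous_apply n)
    fun_prop
  have hint : Integrable (fun ω : ℕ → Bool =>
      Complex.exp (((x * ∑ n ∈ range N, sgn (ω n) * lam ^ n : ℝ) : ℂ) * Complex.I)) coinSeq :=
    Integrable.of_bound hm.aestronglyMeasurable 1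
      (Eventually.of_forall fun ω => le_of_eq (Complex.norm_exp_ofReal_mul_I _))
  have key : ∫ ω, Complex.exp (((x * ∑ n ∈ range N, sgn (ω n) * lam ^ n : ℝ) : ℂ) * Complex.I)
      ∂coinSeq = ((∏ n ∈ range N, Real.cos (x * lam ^ n) : ℝ) : ℂ) := by
    let g : (i : range N) → Bool → ℂ :=
      fun i b => Complex.exp (((x * lam ^ (i : ℕ) * sgn b : ℝ) : ℂ) * Complex.I)
    have e : ∀ ω : ℕ → Bool,
        Complex.exp (((x * ∑ n ∈ range N, sgn (ω n) * lam ^ n : ℝ) : ℂ) * Complex.I) =
          (fun y : (i : range N) → Bool => ∏ i, g i (y i)) ((range N).restrict ω) := by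
      intro ω
      simp only [g, Finset.restrict_def]
      rw [← Complex.exp_sum, ← Finset.sum_mul, ← Complex.ofReal_sum,
        Finset.sum_coe_sort (range N) (fun n => x * lam ^ n * sgn (ω n)), Finset.mul_sum]
      congr 3
      exact Finset.sum_congr rfl fun n _ => by ring
    unfold coinSeq
    simp_rw [e]
    rw [integral_restrict_infinitePi (X := fun _ : ℕ => Bool) (s := range N)
      (f := fun y : (i : range N) → Bool => ∏ i, g i (y i))
      _ (Continuous.aestronglyMeasurable (continuous_of_discreteTopology)),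
      integral_fintype_prod_eq_prod g, Complex.ofReal_prod,
      ← Finset.prod_coe_sort (range N) fun n => ((Real.cos (x * lam ^ n) : ℝ) : ℂ)]
    exact Finset.prod_congr rfl fun i _ => integral_coin _
  have hre := congrArg Complex.re key
  rw [Complex.ofReal_re, ← RCLike.re_to_complex, ← integral_re hint] at hre
  simpa only [RCLike.re_to_complex, Complex.exp_ofReal_mul_I_re] using hre

/-- The characteristic function. -/
noncomputable def charF (lam x : ℝ) : ℝ := ∫ ω, Real.cos (x * series lam ω) ∂coinSeq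

theorem tendsto_charF (h0 : 0 ≤ lam) (h1 : lam < 1) (x : ℝ) :
    Tendsto (fun N => ∏ n ∈ range N, Real.cos (x * lam ^ n)) atTop (𝓝 (charF lam x)) := by
  simp_rw [← integral_cos_finite x lam]
  refine tendsto_integral_of_dominated_convergence (fun _ => (1 : ℝ)) (fun N => ?_)
    (integrable_const 1) (fun N => Eventually.of_forall fun ω => ?_) (Eventually.of_forall fun ω => ?_)
  · have : ∀ n, Continuous fun ω : ℕ → Bool => sgn (ω n) := fun n =>
      (continuous_of_discreteTopology (f := sgn)).comp (continuous_apply n)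
    exact Continuous.aestronglyMeasurable (by fun_prop)
  · exact Real.abs_cos_le_one _
  · exact ((Real.continuous_cos.tendsto _).comp
      (((hasSum_series h0 h1 ω).tendsto_sum_nat).const_mul x))

theorem abs_charF_ge (h0 : 0 ≤ lam) (h1 : lam < 1) {x b : ℝ}
    (h : ∀ N, b ≤ ∏ n ∈ range N, |Real.cos (x * lam ^ n)|) : b ≤ |charF lam x| :=
  ge_of_tendsto (tendsto_charF h0 h1 x).abs
    (Eventually.of_forall fun N => by rw [abs_prod]; exact h N)

theorem abs_charF_add_sub (h0 : 0 ≤ lam) (h1 : lam < 1) {x y η : ℝ}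
    (hx : ∀ n : ℕ, Real.cos (x * lam ^ n) ≠ 0) (hy : ∀ n : ℕ, Real.cos (y * lam ^ n) ≠ 0)
    (hη : ∀ N, ∑ n ∈ range N, |Real.tan (x * lam ^ n)| * |Real.tan (y * lam ^ n)| ≤ η) :
    |charF lam (x + y) - charF lam x * charF lam y| ≤
      |charF lam x * charF lam y| * (Real.exp η - 1) := by
  have hx' := tendsto_charF h0 h1 x
  have hy' := tendsto_charF h0 h1 y
  refine le_of_tendsto_of_tendsto ((tendsto_charF h0 h1 (x + y)).sub (hx'.mul hy')).abs
    ((hx'.mul hy').abs.mul_const _) (Eventually.of_forall fun N => ?_)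
  simp only [add_mul]
  refine (abs_prod_cos_add_sub (range N) (fun n => x * lam ^ n) (fun n => y * lam ^ n)
    (fun n _ => hx n) fun n _ => hy n).trans ?_
  gcongr
  exact hη N

theorem abs_charF_sub_sub (h0 : 0 ≤ lam) (h1 : lam < 1) {x y η : ℝ}
    (hx : ∀ n : ℕ, Real.cos (x * lam ^ n) ≠ 0) (hy : ∀ n : ℕ, Real.cos (y * lam ^ n) ≠ 0)
    (hη : ∀ N, ∑ n ∈ range N, |Real.tan (x * lam ^ n)| * |Real.tan (y * lam ^ n)| ≤ η) :
    |charF lam (x - y) - charF lam x * charF lam y| ≤
      |charF lam x * charF lam y| * (Real.exp η - 1) := by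
  have e : charF lam (-y) = charF lam y := by simp [charF, neg_mul]
  have := abs_charF_add_sub h0 h1 (x := x) (y := -y) (η := η) hx
    (fun n => by rw [neg_mul, Real.cos_neg]; exact hy n)
    (fun N => by simpa [neg_mul, Real.tan_neg] using hη N)
  rwa [e, ← sub_eq_add_neg] at this

end Vale.Agent.P105
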