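import Vale.Agent.P105.Asymp
import Vale.Agent.P105.Measure

/-! Assembly of the interfaces. -/

namespace Vale.Agent.P105

open MeasureTheory Filter Real

theorem isProbability_bernoulliConv {lam : ℝ} (h0 : 0 ≤ lam) (h1 : lam < 1) :
    IsProbabilityMeasure (bernoulliConv lam) := by
  exact Measure.isProbabilityMeasure_map (measurable_series h0 h1).aemeasurable

/-- The invariant holds with every quality. -/
theorem inv_all (hinit : InitStmt) (hP : ParamStmt) (ε : ℝ) (hε : 0 < ε) :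
    ∃ t G D C, Inv salem zee t G D C ε := by
  obtain ⟨hβ, hβ2, hz, -⟩ := hP
  have key : ∀ n : ℕ, ∃ t G D C, Inv salem zee t G D C (eps0 / 2 ^ n) := by
    intro n
    induction n with
    | zero => simpa [InitStmt] using hinit
    | succ n ih =>
      obtain ⟨t, G, D, C, h⟩ := ih
      have hle : eps0 / 2 ^ n ≤ eps0 :=
        div_le_self (by norm_num [eps0]) (one_le_pow₀ one_le_two)
      obtain ⟨t', G', D', C', h'⟩ := asymp salem zee hβ hβ2.le hz t G D C _ hle h
      exact ⟨t', G', D', C', by rw [pow_succ, ← div_div]; exact h'⟩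
  obtain ⟨n, hn⟩ := pow_unbounded_of_one_lt (eps0 / ε) one_lt_two
  obtain ⟨t, G, D, C, ti, c, S, hst, hG, hD, h1, h2, h3, h4, h5⟩ := key n
  have hle : eps0 / 2 ^ n ≤ ε := by
    rw [div_le_iff₀ (by positivity)]
    rw [div_lt_iff₀ hε] at hn
    linarith
  exact ⟨t, G, D, C, ti, c, S, hst, hG, hD,
    h1.trans (mul_le_mul_of_nonneg_right hle hst.Cpos.le), h2.trans hle, h3, h4, h5⟩

theorem disproof (hinit : InitStmt) (hfinal : FinalStmt) (hP : ParamStmt) :
    ∃ lam : ℝ, 1 / 2 < lam ∧ lam < 1 ∧ ¬ IsPisot lam⁻¹ ∧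
      IsProbabilityMeasure (bernoulliConv lam) ∧ bernoulliConv lam ⟂ₘ volume := by
  have hall := inv_all hinit hP
  obtain ⟨hβ, hβ2, hz, hnp⟩ := hP
  refine ⟨salem⁻¹, ?_, ?_, by rwa [inv_inv], ?_, hfinal salem zee hβ hβ2 hz hall⟩
  · rw [one_div]; exact inv_strictAnti₀ (by linarith) hβ2
  · exact inv_lt_one_of_one_lt₀ (by linarith)
  · exact isProbability_bernoulliConv (inv_nonneg.mpr (by linarith))
      (inv_lt_one_of_one_lt₀ (by linarith))

end Vale.Agent.P105
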