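import Vale.Agent.P105.Defs

/-!
Facts about the parameter `salem`: bounds, the quadratic relations over `ℚ(√2)`, the conjugate `zee`
on the unit circle, and the failure of the Pisot property.
-/

namespace Vale.Agent.P105

open Polynomial

theorem sqrt2_bounds : (14142135623730950488 : ℝ) / 10 ^ 19 ≤ √2 ∧
    √2 ≤ 14142135623730950489 / 10 ^ 19 := by
  constructor
  · exact Real.le_sqrt_of_sq_le (by norm_num)
  · exact (Real.sqrt_le_left (by norm_num)).2 (by norm_num)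

theorem disc_nonneg : (0 : ℝ) ≤ 2 * √2 - 1 := by
  linarith [sqrt2_bounds.1, show (1 : ℝ) ≤ 14142135623730950488 / 10 ^ 19 by norm_num]

theorem salem_quad : salem ^ 2 - (1 + √2) * salem + 1 = 0 := by
  have h := Real.mul_self_sqrt disc_nonneg
  have h2 := Real.mul_self_sqrt (show (0 : ℝ) ≤ 2 by norm_num)
  rw [salem]
  nlinarith [h, h2]

theorem salem_bounds : 15 / 8 ≤ salem ∧ salem ≤ 19 / 10 := by
  have h1 := sqrt2_bounds
  have h3 : (13 / 10 : ℝ) * (13 / 10) ≤ 2 * √2 - 1 := by nlinarith [h1.1]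
  have h4 : (135 / 100 : ℝ) ≤ √(2 * √2 - 1) := Real.le_sqrt_of_sq_le (by nlinarith [h1.1])
  have h5 : √(2 * √2 - 1) ≤ 136 / 100 :=
    (Real.sqrt_le_left (by norm_num)).2 (by nlinarith [h1.2])
  rw [salem]
  constructor <;> linarith [h1.1, h1.2]

theorem one_lt_salem : 1 < salem := by linarith [salem_bounds.1]

theorem zee_norm : ‖zee‖ = 1 := by
  have h : ((1 - √2) / 2) ^ 2 ≤ 1 := by nlinarith [sqrt2_bounds.1, sqrt2_bounds.2]
  rw [Complex.norm_def, Complex.normSq_apply]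
  show √(((1 - √2) / 2) * ((1 - √2) / 2) +
    √(1 - ((1 - √2) / 2) ^ 2) * √(1 - ((1 - √2) / 2) ^ 2)) = 1
  rw [Real.mul_self_sqrt (by linarith)]
  rw [show ((1 - √2) / 2) * ((1 - √2) / 2) + (1 - ((1 - √2) / 2) ^ 2) = 1 by ring, Real.sqrt_one]

theorem zee_quad : zee ^ 2 - ((1 - √2 : ℝ) : ℂ) * zee + 1 = 0 := by
  have h : ((1 - √2) / 2) ^ 2 ≤ 1 := by nlinarith [sqrt2_bounds.1, sqrt2_bounds.2]
  have hs := Real.mul_self_sqrt (show 0 ≤ 1 - ((1 - √2) / 2) ^ 2 by linarith)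
  apply Complex.ext
  · simp [zee, sq] at hs ⊢
    nlinarith [hs]
  · simp [zee, sq]
    ring

theorem rat_sqrt_two {p q : ℚ} (h : (p : ℝ) + q * √2 = 0) : p = 0 ∧ q = 0 := by
  by_cases hq : q = 0
  · subst hq
    exact ⟨by simpa using h, rfl⟩
  · refine absurd ?_ (irrational_sqrt_two.ne_rat (-p / q))
    have : (q : ℝ) ≠ 0 := by exact_mod_cast hq
    push_cast
    field_simp
    linarith

theorem salem_notMem (p q : ℚ) : salem ≠ p + q * √2 := by
  intro he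
  have h := salem_quad
  rw [he] at h
  have hh := rat_sqrt_two (p := p ^ 2 + 2 * q ^ 2 - p - 2 * q + 1) (q := 2 * p * q - p - q)
    (by
      push_cast
      linear_combination h - ((q : ℝ) ^ 2 - (q : ℝ)) * Real.mul_self_sqrt (show (0 : ℝ) ≤ 2 by norm_num))
  have c1 : (p : ℝ) ^ 2 + 2 * (q : ℝ) ^ 2 - p - 2 * q + 1 = 0 := by exact_mod_cast hh.1
  have c2 : 2 * (p : ℝ) * q - p - q = 0 := by exact_mod_cast hh.2
  have hc : ((p : ℝ) - q * √2) ^ 2 - (1 - √2) * ((p : ℝ) - q * √2) + 1 = 0 := by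
    linear_combination c1 - √2 * c2 +
      ((q : ℝ) ^ 2 - (q : ℝ)) * Real.mul_self_sqrt (show (0 : ℝ) ≤ 2 by norm_num)
  nlinarith [sq_nonneg (2 * ((p : ℝ) - q * √2) - (1 - √2)), sqrt2_bounds.1, sqrt2_bounds.2]

theorem low_degree {r0 r1 r2 r3 : ℚ}
    (h : (r0 : ℝ) + r1 * salem + r2 * salem ^ 2 + r3 * salem ^ 3 = 0) :
    r0 = 0 ∧ r1 = 0 ∧ r2 = 0 ∧ r3 = 0 := by
  obtain ⟨u0, hu0⟩ : ∃ u, u = r0 - r2 - r3 := ⟨_, rfl⟩
  obtain ⟨u1, hu1⟩ : ∃ u, u = -r3 := ⟨_, rfl⟩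
  obtain ⟨v0, hv0⟩ : ∃ u, u = r1 + r2 + 2 * r3 := ⟨_, rfl⟩
  obtain ⟨v1, hv1⟩ : ∃ u, u = r2 + 2 * r3 := ⟨_, rfl⟩
  have s2 := Real.mul_self_sqrt (show (0 : ℝ) ≤ 2 by norm_num)
  have e : ((u0 : ℝ) + u1 * √2) + ((v0 : ℝ) + v1 * √2) * salem = 0 := by
    rw [hu0, hu1, hv0, hv1]
    push_cast
    linear_combination h - ((r3 : ℝ) * salem + r2 + r3 * (1 + √2)) * salem_quad
      - (r3 : ℝ) * salem * s2
  have hN : v0 ^ 2 - 2 * v1 ^ 2 = 0 := by
    by_contra hN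
    have hN' : (v0 : ℝ) ^ 2 - 2 * (v1 : ℝ) ^ 2 ≠ 0 := by exact_mod_cast hN
    refine salem_notMem (-(u0 * v0 - 2 * u1 * v1) / (v0 ^ 2 - 2 * v1 ^ 2))
      (-(u1 * v0 - u0 * v1) / (v0 ^ 2 - 2 * v1 ^ 2)) ?_
    push_cast
    field_simp
    linear_combination ((v0 : ℝ) - v1 * √2) * e + ((v1 : ℝ) ^ 2 * salem + u1 * v1) * s2
  have hv : v0 = 0 ∧ v1 = 0 := by
    have hN' : (v0 : ℝ) ^ 2 - 2 * (v1 : ℝ) ^ 2 = 0 := by exact_mod_cast hN
    have : ((v0 : ℝ) + v1 * √2) * ((v0 : ℝ) + (-v1 : ℚ) * √2) = 0 := by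
      push_cast
      linear_combination hN' - (v1 : ℝ) ^ 2 * s2
    rcases mul_eq_zero.mp this with h' | h'
    · exact rat_sqrt_two h'
    · simpa using rat_sqrt_two h'
  rw [hv.1, hv.2] at e
  have hu := rat_sqrt_two (p := u0) (q := u1) (by simpa using e)
  refine ⟨?_, ?_, ?_, ?_⟩ <;> linarith [hu.1, hu.2, hv.1, hv.2]

/-- The minimal polynomial of `salem` vanishes at `zee`. -/
theorem aeval_zee {f : ℚ[X]} (hf : aeval salem f = 0) : aeval zee f = 0 := by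
  set P : ℚ[X] := X ^ 4 - 2 * X ^ 3 + X ^ 2 - 2 * X + 1 with hP
  have hm : P.Monic := by rw [hP]; monicity!
  have hd : P.natDegree = 4 := by rw [hP]; compute_degree!
  have s2 := Real.mul_self_sqrt (show (0 : ℝ) ≤ 2 by norm_num)
  have hPs : aeval salem P = 0 := by
    simp only [hP, map_add, map_sub, map_mul, map_pow, map_one, map_ofNat, aeval_X]
    linear_combination (salem ^ 2 - (1 - √2) * salem + 1) * salem_quad + salem ^ 2 * s2
  have hPz : aeval zee P = 0 := by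
    simp only [hP, map_add, map_sub, map_mul, map_pow, map_one, map_ofNat, aeval_X]
    have s2c : ((√2 : ℝ) : ℂ) * ((√2 : ℝ) : ℂ) = 2 := by exact_mod_cast s2
    have hz := zee_quad
    push_cast at hz
    linear_combination (zee ^ 2 - (1 + ((√2 : ℝ) : ℂ)) * zee + 1) * hz + zee ^ 2 * s2c
  rw [← modByMonic_add_div f P, map_add, map_mul, hPz, zero_mul, add_zero]
  rw [← modByMonic_add_div f P, map_add, map_mul, hPs, zero_mul, add_zero] at hf
  have hr : (f %ₘ P).natDegree < 4 := hd ▸ natDegree_modByMonic_lt f hm (fun h => by simp [h] at hd)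
  rw [aeval_eq_sum_range' hr] at hf ⊢
  simp only [Finset.sum_range_succ, Finset.sum_range_zero, zero_add, pow_zero, pow_one,
    Algebra.smul_def, mul_one, eq_ratCast] at hf ⊢
  obtain ⟨h0, h1, h2, h3⟩ := low_degree hf
  simp [h0, h1, h2, h3]

theorem not_isPisot : ¬ IsPisot salem := by
  rintro ⟨h1, -, h3⟩
  have hne : zee ≠ (salem : ℂ) := by
    intro h
    have := congrArg (fun w : ℂ => ‖w‖) h
    simp only [zee_norm, Complex.norm_real, Real.norm_eq_abs] at this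
    rw [abs_of_pos (by linarith [one_lt_salem])] at this
    linarith
  have := h3 zee (aeval_zee (minpoly.aeval ℚ salem)) hne
  rw [zee_norm] at this
  exact lt_irrefl _ this

theorem paramStmt : ParamStmt :=
  ⟨by linarith [salem_bounds.1], by linarith [salem_bounds.2], zee_norm, not_isPisot⟩

end Vale.Agent.P105
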