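import Vale.Agent.P105.Trig

/-!
States of near-integer multipliers of a Salem-type parameter and the multiplication step
`t ↦ t * (β ^ L - 1)`.
-/

namespace Vale.Agent.P105

open Finset Real

/-- Data attached to a multiplier `t` of the parameter `β`: an integrality identity with a contracting
term and a unimodular term, and bounds for the products of cosines and the sums of tangents. -/
structure State (β : ℝ) (z : ℂ) (t ti : ℝ) (c : ℂ) (D A : ℝ) (G : ℕ) (C S : ℝ) : Prop where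
  elem : ∀ n : ℕ, ∃ m : ℤ, t * β ^ n + ti * β⁻¹ ^ n + 2 * (c * z ^ n).re = m
  hc : 2 * ‖c‖ ≤ D
  hti : |ti| ≤ A
  tail : |t| * β⁻¹ ^ G ≤ A
  small : D + A ≤ 1 / 8
  Cpos : 0 < C
  prod_ge : ∀ N : ℕ, C ≤ ∏ n ∈ range N, |cos (π * (t * β⁻¹ ^ n))|
  tan_le : ∀ N : ℕ, ∑ n ∈ range N, |tan (π * (t * β⁻¹ ^ n))| ≤ S

namespace State

variable {β : ℝ} {z : ℂ} {t ti : ℝ} {c : ℂ} {D A : ℝ} {G : ℕ} {C S : ℝ}

theorem D_nonneg (h : State β z t ti c D A G C S) : 0 ≤ D :=
  le_trans (by positivity) h.hc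

theorem A_nonneg (h : State β z t ti c D A G C S) : 0 ≤ A :=
  (abs_nonneg _).trans h.hti

theorem S_nonneg (h : State β z t ti c D A G C S) : 0 ≤ S := by
  simpa using h.tan_le 0

theorem C_le_one (h : State β z t ti c D A G C S) : C ≤ 1 := by
  simpa using h.prod_ge 0

theorem cos_ne (h : State β z t ti c D A G C S) (n : ℕ) : cos (π * (t * β⁻¹ ^ n)) ≠ 0 := by
  intro h0
  have := h.prod_ge (n + 1)
  rw [prod_range_succ, h0] at this
  simp only [abs_zero, mul_zero] at this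
  linarith [h.Cpos]

theorem near (h : State β z t ti c D A G C S) (hβ : 1 < β) (hz : ‖z‖ = 1) (m : ℕ) :
    ∃ k : ℤ, |t * β ^ m - k| ≤ D + A * β⁻¹ ^ m := by
  obtain ⟨k, hk⟩ := h.elem m
  refine ⟨k, ?_⟩
  have e : t * β ^ m - k = -(ti * β⁻¹ ^ m + 2 * (c * z ^ m).re) := by rw [← hk]; ring
  rw [e, abs_neg]
  refine (abs_add_le _ _).trans ?_
  have h1 : |2 * (c * z ^ m).re| ≤ D := by
    rw [abs_mul, abs_two]
    refine le_trans ?_ h.hc
    have := Complex.abs_re_le_norm (c * z ^ m)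
    rw [norm_mul, norm_pow, hz, one_pow, mul_one] at this
    linarith
  have hb : 0 ≤ β⁻¹ ^ m := by positivity
  rw [abs_mul, abs_of_nonneg hb]
  have := mul_le_mul_of_nonneg_right h.hti hb
  linarith

theorem near_bound (h : State β z t ti c D A G C S) (hβ : 1 < β) (m : ℕ) :
    D + A * β⁻¹ ^ m ≤ 1 / 8 := by
  have : A * β⁻¹ ^ m ≤ A * 1 := mul_le_mul_of_nonneg_left
    (pow_le_one₀ (by positivity) (inv_le_one_of_one_le₀ hβ.le)) h.A_nonneg
  linarith [h.small]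

theorem far (h : State β z t ti c D A G C S) (hβ : 1 < β) {n : ℕ} (hn : G ≤ n) :
    |t * β⁻¹ ^ n - ((0 : ℤ) : ℝ)| ≤ A * β⁻¹ ^ (n - G) := by
  have hb : 0 < β := by linarith
  rw [Int.cast_zero, sub_zero, abs_mul, abs_of_nonneg (by positivity : (0 : ℝ) ≤ β⁻¹ ^ n)]
  calc |t| * β⁻¹ ^ n = |t| * β⁻¹ ^ G * β⁻¹ ^ (n - G) := by
        rw [mul_assoc, ← pow_add, Nat.add_sub_cancel' hn]
    _ ≤ A * β⁻¹ ^ (n - G) := by gcongr; exact h.tail

theorem shift_eq (hβ : 1 < β) (L n : ℕ) :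
    t * β ^ L * β⁻¹ ^ n =
      if n ≤ L then t * β ^ (L - n) else t * β⁻¹ ^ (n - L) := by
  have hb : β ≠ 0 := by intro h0; linarith
  split_ifs with hn
  · nth_rewrite 1 [show L = (L - n) + n by omega]
    rw [pow_add, inv_pow]
    field_simp
  · nth_rewrite 1 [show n = L + (n - L) by omega]
    rw [pow_add, inv_pow, inv_pow]
    field_simp

theorem shift_add (hβ : 1 < β) (L k : ℕ) : t * β ^ L * β⁻¹ ^ (L + k) = t * β⁻¹ ^ k := by
  have hb : β ≠ 0 := by intro h0; linarith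
  rw [pow_add, inv_pow, inv_pow]
  field_simp

theorem shift_cos_ge (h : State β z t ti c D A G C S) (hβ : 1 < β) (hz : ‖z‖ = 1) (L N : ℕ) :
    C * exp (-6 * (2 * L * D ^ 2 + 2 * A ^ 2 / (1 - β⁻¹))) ≤
      ∏ n ∈ range N, |cos (π * (t * β ^ L * β⁻¹ ^ n))| := by
  have hmono : ∏ n ∈ range (L + N), |cos (π * (t * β ^ L * β⁻¹ ^ n))| ≤
      ∏ n ∈ range N, |cos (π * (t * β ^ L * β⁻¹ ^ n))| := by
    rw [add_comm, prod_range_add]
    exact mul_le_of_le_one_right (prod_nonneg fun _ _ => abs_nonneg _)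
      (prod_le_one (fun _ _ => abs_nonneg _) fun _ _ => abs_cos_le_one _)
  refine le_trans ?_ hmono
  rw [prod_range_add, mul_comm]
  refine mul_le_mul ?_ ((h.prod_ge N).trans_eq ?_) h.Cpos.le (prod_nonneg fun _ _ => abs_nonneg _)
  · set e : ℕ → ℝ := fun n => D + A * β⁻¹ ^ (L - n) with he
    have h1 : ∀ n ∈ range L, exp (-6 * e n ^ 2) ≤ |cos (π * (t * β ^ L * β⁻¹ ^ n))| := by
      intro n hn
      obtain ⟨k, hk⟩ := h.near hβ hz (L - n)
      rw [shift_eq hβ, if_pos (mem_range.mp hn).le]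
      exact exp_neg_le_abs_cos hk (h.near_bound hβ _)
    refine le_trans ?_ (prod_le_prod (fun _ _ => (exp_pos _).le) h1)
    rw [← exp_sum, exp_le_exp, ← mul_sum]
    refine mul_le_mul_of_nonpos_left ?_ (by norm_num)
    have hr : β⁻¹ < 1 := inv_lt_one_of_one_lt₀ hβ
    have hr0 : 0 ≤ β⁻¹ := by positivity
    calc ∑ n ∈ range L, e n ^ 2 ≤ ∑ n ∈ range L, (2 * D ^ 2 + 2 * A ^ 2 * β⁻¹ ^ (L - n)) := by
          refine sum_le_sum fun n _ => ?_
          have hp : β⁻¹ ^ (L - n) * β⁻¹ ^ (L - n) ≤ β⁻¹ ^ (L - n) :=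
            mul_le_of_le_one_right (pow_nonneg hr0 _) (pow_le_one₀ hr0 hr.le)
          have hp2 := mul_le_mul_of_nonneg_left hp (sq_nonneg A)
          have hsq := sq_nonneg (D - A * β⁻¹ ^ (L - n))
          simp only [he]
          nlinarith
      _ = 2 * L * D ^ 2 + 2 * A ^ 2 * ∑ n ∈ range L, β⁻¹ ^ (L - n) := by
          rw [sum_add_distrib, sum_const, card_range, ← mul_sum, nsmul_eq_mul]; ring
      _ ≤ _ := by
          rw [div_eq_mul_inv]
          gcongr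
          rw [← sum_range_reflect]
          refine le_trans (sum_le_sum fun n hn => ?_) (geom_sum_le_inv hr0 hr L)
          exact pow_le_pow_of_le_one hr0 hr.le (by have := mem_range.mp hn; omega)
  · exact prod_congr rfl fun k _ => by rw [shift_add hβ]

theorem shift_tan_le (h : State β z t ti c D A G C S) (hβ : 1 < β) (hz : ‖z‖ = 1) (L N : ℕ) :
    ∑ n ∈ range N, |tan (π * (t * β ^ L * β⁻¹ ^ n))| ≤ S + 4 * (L * D + A / (1 - β⁻¹)) := by
  refine le_trans (sum_le_sum_of_subset_of_nonneg (t := range (L + N))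
    (range_mono (by omega)) fun _ _ _ => abs_nonneg _) ?_
  rw [sum_range_add, add_comm S]
  refine add_le_add ?_ (le_trans (le_of_eq ?_) (h.tan_le N))
  · have hr : β⁻¹ < 1 := inv_lt_one_of_one_lt₀ hβ
    have hr0 : 0 ≤ β⁻¹ := by positivity
    calc ∑ n ∈ range L, |tan (π * (t * β ^ L * β⁻¹ ^ n))|
        ≤ ∑ n ∈ range L, 4 * (D + A * β⁻¹ ^ (L - n)) := by
          refine sum_le_sum fun n hn => ?_
          obtain ⟨k, hk⟩ := h.near hβ hz (L - n)
          rw [shift_eq hβ, if_pos (mem_range.mp hn).le]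
          exact abs_tan_le hk (h.near_bound hβ _)
      _ = 4 * (L * D + A * ∑ n ∈ range L, β⁻¹ ^ (L - n)) := by
          rw [← mul_sum, sum_add_distrib, sum_const, card_range, ← mul_sum, nsmul_eq_mul]
      _ ≤ _ := by
          rw [div_eq_mul_inv]
          have := h.A_nonneg
          gcongr
          rw [← sum_range_reflect]
          refine le_trans (sum_le_sum fun n hn => ?_) (geom_sum_le_inv hr0 hr L)
          exact pow_le_pow_of_le_one hr0 hr.le (by have := mem_range.mp hn; omega)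
  · exact sum_congr rfl fun k _ => by rw [shift_add hβ]

/-- Interaction of two copies of the multiplier at distance `L`. -/
theorem pair_le (h : State β z t ti c D A G C S) (hβ : 1 < β) (hz : ‖z‖ = 1) {L w : ℕ}
    (hw : G + 2 * w ≤ L) (N : ℕ) :
    ∑ n ∈ range N, |tan (π * (t * β ^ L * β⁻¹ ^ n))| * |tan (π * (t * β⁻¹ ^ n))| ≤
      4 * D * S + 4 * A * β⁻¹ ^ w * (S + (S + 4 * (L * D + A / (1 - β⁻¹)))) := by
  have hr0 : 0 ≤ β⁻¹ := by positivity
  have hr : β⁻¹ ≤ 1 := inv_le_one_of_one_le₀ hβ.le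
  have hA := h.A_nonneg
  have hpt : ∀ n, |tan (π * (t * β ^ L * β⁻¹ ^ n))| * |tan (π * (t * β⁻¹ ^ n))| ≤
      4 * (D + A * β⁻¹ ^ w) * |tan (π * (t * β⁻¹ ^ n))|
        + 4 * A * β⁻¹ ^ w * |tan (π * (t * β ^ L * β⁻¹ ^ n))| := by
    intro n
    rcases lt_or_ge n (G + w) with hn | hn
    · refine le_add_of_le_of_nonneg ?_ (by positivity)
      refine mul_le_mul_of_nonneg_right ?_ (abs_nonneg _)
      obtain ⟨k, hk⟩ := h.near hβ hz (L - n)
      rw [shift_eq hβ, if_pos (by omega)]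
      refine (abs_tan_le hk (h.near_bound hβ _)).trans ?_
      have : A * β⁻¹ ^ (L - n) ≤ A * β⁻¹ ^ w :=
        mul_le_mul_of_nonneg_left (pow_le_pow_of_le_one hr0 hr (by omega)) hA
      linarith
    · refine le_add_of_nonneg_of_le ?_ ?_
      · have := h.D_nonneg
        positivity
      have hf := h.far hβ (show G ≤ n by omega)
      have hle : A * β⁻¹ ^ (n - G) ≤ A * β⁻¹ ^ w :=
        mul_le_mul_of_nonneg_left (pow_le_pow_of_le_one hr0 hr (by omega)) hA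
      have h18 : A * β⁻¹ ^ (n - G) ≤ 1 / 8 := by
        have := h.near_bound hβ (n - G); linarith [h.D_nonneg]
      rw [mul_comm]
      refine mul_le_mul_of_nonneg_right ?_ (abs_nonneg _)
      calc |tan (π * (t * β⁻¹ ^ n))| ≤ 4 * (A * β⁻¹ ^ (n - G)) := abs_tan_le hf h18
        _ ≤ 4 * A * β⁻¹ ^ w := by linarith
  refine (sum_le_sum fun n _ => hpt n).trans ?_
  rw [sum_add_distrib, ← mul_sum, ← mul_sum]
  have h1 := mul_le_mul_of_nonneg_left (h.tan_le N)
    (show 0 ≤ 4 * (D + A * β⁻¹ ^ w) by have := h.D_nonneg; positivity)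
  have h2 := mul_le_mul_of_nonneg_left (h.shift_tan_le hβ hz L N)
    (show 0 ≤ 4 * A * β⁻¹ ^ w by positivity)
  linarith

theorem shift_cos_ne (h : State β z t ti c D A G C S) (hβ : 1 < β) (hz : ‖z‖ = 1) (L n : ℕ) :
    cos (π * (t * β ^ L * β⁻¹ ^ n)) ≠ 0 := by
  intro h0
  have := h.shift_cos_ge hβ hz L (n + 1)
  rw [prod_range_succ, h0] at this
  simp only [abs_zero, mul_zero] at this
  have := mul_pos h.Cpos (exp_pos (-6 * (2 * L * D ^ 2 + 2 * A ^ 2 / (1 - β⁻¹))))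
  linarith

/-- The multiplication step. -/
theorem step (h : State β z t ti c D A G C S) (hβ : 1 < β) (hz : ‖z‖ = 1) {L w : ℕ}
    (hw : G + 2 * w ≤ L) {ρ η : ℝ} (hρ : ‖z ^ L - 1‖ ≤ ρ)
    (hη : 4 * D * S + 4 * A * β⁻¹ ^ w * (S + (S + 4 * (L * D + A / (1 - β⁻¹)))) ≤ η)
    (hη1 : η < 1) (hsmall : D * ρ + A ≤ 1 / 8) :
    State β z (t * (β ^ L - 1)) (ti * (β⁻¹ ^ L - 1)) (c * (z ^ L - 1)) (D * ρ) A (G + L)
      (C ^ 2 * exp (-6 * (2 * L * D ^ 2 + 2 * A ^ 2 / (1 - β⁻¹))) * (1 - η))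
      ((S + (S + 4 * (L * D + A / (1 - β⁻¹)))) / (1 - η)) := by
  have hb : 0 < β := by linarith
  have hη' : ∀ N, ∑ n ∈ range N, |tan (π * (t * β ^ L * β⁻¹ ^ n))| * |tan (π * (t * β⁻¹ ^ n))| ≤ η :=
    fun N => (h.pair_le hβ hz hw N).trans hη
  have e : ∀ n, π * (t * (β ^ L - 1) * β⁻¹ ^ n) = π * (t * β ^ L * β⁻¹ ^ n) - π * (t * β⁻¹ ^ n) :=
    fun n => by ring
  refine ⟨fun n => ?_, ?_, ?_, ?_, hsmall, ?_, fun N => ?_, fun N => ?_⟩
  · obtain ⟨m₁, h₁⟩ := h.elem (n + L)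
    obtain ⟨m₂, h₂⟩ := h.elem n
    refine ⟨m₁ - m₂, ?_⟩
    push_cast
    rw [← h₁, ← h₂, show c * (z ^ L - 1) * z ^ n = c * z ^ (n + L) - c * z ^ n by ring,
      Complex.sub_re]
    ring
  · rw [norm_mul, ← mul_assoc]
    exact mul_le_mul h.hc hρ (norm_nonneg _) h.D_nonneg
  · rw [abs_mul]
    refine (mul_le_of_le_one_right (abs_nonneg _) ?_).trans h.hti
    have h1 : β⁻¹ ^ L ≤ 1 := pow_le_one₀ (by positivity) (inv_le_one_of_one_le₀ hβ.le)
    have h0 : 0 ≤ β⁻¹ ^ L := by positivity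
    rw [abs_le]; constructor <;> linarith
  · have h1 : (1 : ℝ) ≤ β ^ L := one_le_pow₀ hβ.le
    calc |t * (β ^ L - 1)| * β⁻¹ ^ (G + L) ≤ |t| * β ^ L * β⁻¹ ^ (G + L) := by
          rw [abs_mul, abs_of_nonneg (by linarith : (0 : ℝ) ≤ β ^ L - 1)]
          gcongr; linarith
      _ = |t| * β⁻¹ ^ G := by rw [add_comm G L, shift_add (t := |t|) hβ]
      _ ≤ A := h.tail
  · have : 0 < 1 - η := by linarith
    have := h.Cpos
    positivity
  · simp only [e]
    refine le_trans ?_ (prod_abs_cos_sub_ge (range N) _ _ (fun n _ => h.shift_cos_ne hβ hz L n)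
      fun n _ => h.cos_ne n)
    rw [show ∀ x : ℝ, C ^ 2 * x * (1 - η) = C * x * C * (1 - η) from fun x => by ring]
    have h1 := h.shift_cos_ge hβ hz L N
    have h2 := h.prod_ge N
    have h3 := hη' N
    have := h.Cpos
    refine mul_le_mul (mul_le_mul h1 h2 this.le (prod_nonneg fun _ _ => abs_nonneg _))
      (by linarith) (by linarith) ?_
    exact mul_nonneg (prod_nonneg fun _ _ => abs_nonneg _) (prod_nonneg fun _ _ => abs_nonneg _)
  · simp only [e]
    have h1 : ∀ n ∈ range N, |tan (π * (t * β ^ L * β⁻¹ ^ n) - π * (t * β⁻¹ ^ n))| ≤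
        (|tan (π * (t * β ^ L * β⁻¹ ^ n))| + |tan (π * (t * β⁻¹ ^ n))|) / (1 - η) := fun n hn =>
      abs_tan_sub_le (h.shift_cos_ne hβ hz L n) (h.cos_ne n)
        ((single_le_sum (f := fun k => |tan (π * (t * β ^ L * β⁻¹ ^ k))| * |tan (π * (t * β⁻¹ ^ k))|)
          (fun k _ => by positivity) hn).trans (hη' N)) hη1
    refine (sum_le_sum h1).trans ?_
    rw [← sum_div, sum_add_distrib]
    refine div_le_div_of_nonneg_right ?_ (by linarith)
    linarith [h.tan_le N, h.shift_tan_le hβ hz L N]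

end State

end Vale.Agent.P105
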