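import Mathlib

/-!
Trigonometric core for the Bernoulli convolution argument: bounds near the integers and the
multiplicative comparison of products of cosines at `u + v` with those at `u` and at `v`.
-/

namespace Vale.Agent.P105

open Finset Real

theorem abs_cos_pi_mul_sub (x : ℝ) (m : ℤ) : |cos (π * (x - m))| = |cos (π * x)| := by
  rw [show π * (x - m) = π * x - (m : ℝ) * π by ring, Real.cos_sub_int_mul_pi, abs_mul]
  simp

theorem tan_pi_mul_sub (x : ℝ) (m : ℤ) : tan (π * (x - m)) = tan (π * x) := by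
  rw [show π * (x - m) = π * x - (m : ℝ) * π by ring, Real.tan_periodic.sub_int_mul_eq]

theorem one_sub_five_sq_le_cos {d : ℝ} : 1 - 5 * d ^ 2 ≤ cos (π * d) := by
  have h := Real.one_sub_sq_div_two_le_cos (x := π * d)
  have h2 : π ^ 2 ≤ 10 := by nlinarith [Real.pi_lt_d2, Real.pi_pos]
  have := mul_le_mul_of_nonneg_right h2 (sq_nonneg d)
  nlinarith [this]

theorem exp_neg_le_abs_cos {x e : ℝ} {m : ℤ} (h : |x - m| ≤ e) (he : e ≤ 1 / 8) :
    exp (-6 * e ^ 2) ≤ |cos (π * x)| := by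
  rw [← abs_cos_pi_mul_sub x m]
  refine le_trans ?_ ((one_sub_five_sq_le_cos (d := x - m)).trans (le_abs_self _))
  have he0 : 0 ≤ e := (abs_nonneg _).trans h
  have hd : (x - m) ^ 2 ≤ e ^ 2 := sq_le_sq' (abs_le.mp h).1 (abs_le.mp h).2
  have he2 : e ^ 2 ≤ 1 / 64 := by nlinarith
  have h1 : exp (-6 * e ^ 2) ≤ 1 / (1 + 6 * e ^ 2) := by
    rw [neg_mul, exp_neg, one_div]
    exact inv_anti₀ (by positivity) (by linarith [add_one_le_exp (6 * e ^ 2)])
  refine h1.trans ?_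
  rw [div_le_iff₀ (by positivity)]
  nlinarith [mul_nonneg (sq_nonneg e) (sub_nonneg.mpr he2), mul_nonneg (sq_nonneg e) (sub_nonneg.mpr hd)]

theorem abs_tan_le {x e : ℝ} {m : ℤ} (h : |x - m| ≤ e) (he : e ≤ 1 / 8) :
    |tan (π * x)| ≤ 4 * e := by
  rw [← tan_pi_mul_sub x m, tan_eq_sin_div_cos, abs_div]
  have he0 : 0 ≤ e := (abs_nonneg _).trans h
  have hd : (x - m) ^ 2 ≤ e ^ 2 := sq_le_sq' (abs_le.mp h).1 (abs_le.mp h).2
  have hc : 9 / 10 ≤ |cos (π * (x - m))| := by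
    have := (one_sub_five_sq_le_cos (d := x - m)).trans (le_abs_self _)
    nlinarith
  rw [div_le_iff₀ (by linarith)]
  have hs : |sin (π * (x - m))| ≤ π * e := by
    refine (Real.abs_sin_le_abs).trans ?_
    rw [abs_mul, abs_of_pos pi_pos]
    gcongr
  have : π * e ≤ 36 / 10 * e := by nlinarith [Real.pi_lt_d2]
  nlinarith [mul_le_mul_of_nonneg_left hc (mul_nonneg (by norm_num : (0:ℝ) ≤ 4) he0)]

theorem cos_add_eq {u v : ℝ} (hu : cos u ≠ 0) (hv : cos v ≠ 0) :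
    cos (u + v) = cos u * cos v * (1 - tan u * tan v) := by
  rw [cos_add, tan_eq_sin_div_cos, tan_eq_sin_div_cos]
  field_simp

theorem one_sub_sum_le_prod {ι : Type*} (s : Finset ι) (a : ι → ℝ) :
    1 - ∑ i ∈ s, |a i| ≤ ∏ i ∈ s, |1 - a i| := by
  induction s using Finset.cons_induction with
  | empty => simp
  | cons i s hi ih =>
    rw [Finset.sum_cons, Finset.prod_cons]
    have h0 : 0 ≤ ∏ j ∈ s, |1 - a j| := Finset.prod_nonneg fun _ _ => abs_nonneg _
    have hs : 0 ≤ ∑ j ∈ s, |a j| := Finset.sum_nonneg fun _ _ => abs_nonneg _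
    have h1 : 1 - |a i| ≤ |1 - a i| := by
      have := abs_sub_abs_le_abs_sub (1 : ℝ) (a i); simpa using this
    rcases le_or_gt (|a i| + ∑ j ∈ s, |a j|) 1 with h | h
    · calc 1 - (|a i| + ∑ j ∈ s, |a j|) ≤ (1 - |a i|) * (1 - ∑ j ∈ s, |a j|) := by
            nlinarith [mul_nonneg (abs_nonneg (a i)) hs]
        _ ≤ |1 - a i| * ∏ j ∈ s, |1 - a j| :=
            mul_le_mul h1 ih (by linarith [abs_nonneg (a i)]) (abs_nonneg _)
    · nlinarith [mul_nonneg (abs_nonneg (1 - a i)) h0]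

theorem abs_prod_one_sub_sub_one {ι : Type*} (s : Finset ι) (a : ι → ℝ) :
    |∏ i ∈ s, (1 - a i) - 1| ≤ exp (∑ i ∈ s, |a i|) - 1 := by
  induction s using Finset.cons_induction with
  | empty => simp
  | cons i s hi ih =>
    rw [Finset.sum_cons, Finset.prod_cons, exp_add]
    have h1 := add_one_le_exp |a i|
    have hX : 1 ≤ exp (∑ j ∈ s, |a j|) := one_le_exp (Finset.sum_nonneg fun _ _ => abs_nonneg _)
    have h2 : |1 - a i| ≤ 1 + |a i| := by
      simpa using abs_sub (1 : ℝ) (a i)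
    calc |(1 - a i) * ∏ j ∈ s, (1 - a j) - 1|
        = |(1 - a i) * (∏ j ∈ s, (1 - a j) - 1) + (-a i)| := by ring_nf
      _ ≤ |1 - a i| * |∏ j ∈ s, (1 - a j) - 1| + |a i| := by
          refine (abs_add_le _ _).trans ?_
          rw [abs_mul, abs_neg]
      _ ≤ (1 + |a i|) * (exp (∑ j ∈ s, |a j|) - 1) + |a i| := by gcongr
      _ ≤ exp |a i| * exp (∑ j ∈ s, |a j|) - 1 := by nlinarith

/-- The decoupling identity for products of cosines. -/
theorem prod_cos_add {ι : Type*} (s : Finset ι) (u v : ι → ℝ)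
    (hu : ∀ i ∈ s, cos (u i) ≠ 0) (hv : ∀ i ∈ s, cos (v i) ≠ 0) :
    ∏ i ∈ s, cos (u i + v i) =
      (∏ i ∈ s, cos (u i)) * (∏ i ∈ s, cos (v i)) * ∏ i ∈ s, (1 - tan (u i) * tan (v i)) := by
  rw [← Finset.prod_mul_distrib, ← Finset.prod_mul_distrib]
  exact Finset.prod_congr rfl fun i hi => cos_add_eq (hu i hi) (hv i hi)

theorem prod_abs_cos_sub_ge {ι : Type*} (s : Finset ι) (u v : ι → ℝ)
    (hu : ∀ i ∈ s, cos (u i) ≠ 0) (hv : ∀ i ∈ s, cos (v i) ≠ 0) :
    (∏ i ∈ s, |cos (u i)|) * (∏ i ∈ s, |cos (v i)|) * (1 - ∑ i ∈ s, |tan (u i)| * |tan (v i)|)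
      ≤ ∏ i ∈ s, |cos (u i - v i)| := by
  have h := one_sub_sum_le_prod s fun i => tan (u i) * tan (-(v i))
  simp only [tan_neg, abs_mul, abs_neg] at h
  calc _ ≤ (∏ i ∈ s, |cos (u i)|) * (∏ i ∈ s, |cos (v i)|)
          * ∏ i ∈ s, |1 - tan (u i) * -tan (v i)| := by gcongr
    _ = _ := by
      rw [← Finset.prod_mul_distrib, ← Finset.prod_mul_distrib]
      refine Finset.prod_congr rfl fun i hi => ?_
      rw [sub_eq_add_neg (u i), cos_add_eq (hu i hi) (by simpa using hv i hi), abs_mul, abs_mul,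
        cos_neg, tan_neg]

/-- Two-sided decoupling. -/
theorem abs_prod_cos_add_sub {ι : Type*} (s : Finset ι) (u v : ι → ℝ)
    (hu : ∀ i ∈ s, cos (u i) ≠ 0) (hv : ∀ i ∈ s, cos (v i) ≠ 0) :
    |∏ i ∈ s, cos (u i + v i) - (∏ i ∈ s, cos (u i)) * ∏ i ∈ s, cos (v i)| ≤
      |(∏ i ∈ s, cos (u i)) * ∏ i ∈ s, cos (v i)| *
        (exp (∑ i ∈ s, |tan (u i)| * |tan (v i)|) - 1) := by
  rw [prod_cos_add s u v hu hv, ← mul_sub_one, abs_mul]
  refine mul_le_mul_of_nonneg_left ?_ (abs_nonneg _)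
  simpa [abs_mul] using abs_prod_one_sub_sub_one s fun i => tan (u i) * tan (v i)

theorem abs_tan_sub_le {u v η : ℝ} (hu : cos u ≠ 0) (hv : cos v ≠ 0)
    (h : |tan u| * |tan v| ≤ η) (hη : η < 1) :
    |tan (u - v)| ≤ (|tan u| + |tan v|) / (1 - η) := by
  have hc : 1 - η ≤ |1 + tan u * tan v| := by
    have := abs_sub_abs_le_abs_sub (1 : ℝ) (-(tan u * tan v))
    simp only [abs_one, abs_neg, sub_neg_eq_add, abs_mul] at this
    linarith
  have e : tan (u - v) = (tan u - tan v) / (1 + tan u * tan v) := by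
    simp only [tan_eq_sin_div_cos]
    rw [sin_sub, cos_sub, div_sub_div _ _ hu hv, div_mul_div_comm,
      one_add_div (mul_ne_zero hu hv), div_div_div_cancel_right₀ (mul_ne_zero hu hv)]
  rw [e, abs_div]
  exact div_le_div₀ (by positivity) (abs_sub _ _) (by linarith) hc

theorem geom_sum_le_inv {r : ℝ} (h0 : 0 ≤ r) (h1 : r < 1) (n : ℕ) :
    ∑ i ∈ range n, r ^ i ≤ (1 - r)⁻¹ :=
  by
    have h : (∑ i ∈ range n, r ^ i) * (1 - r) = 1 - r ^ n := geom_sum_mul_neg r n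
    rw [← one_div, le_div_iff₀ (by linarith), h]
    linarith [pow_nonneg h0 n]

end Vale.Agent.P105
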